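import Vale.Agent.P011.H775.Skol
import Mathlib.LinearAlgebra.Eigenspace.Basic
import Mathlib.RingTheory.Trace.Basic
import Mathlib.RingTheory.Norm.Transitivity
import Mathlib.FieldTheory.PrimitiveElement
import Mathlib.FieldTheory.IsAlgClosed.AlgebraicClosure

/-!
# Diagonal splittings

A splitting of `D` in which a symmetric cubic field `F` becomes diagonal.
-/

open Module Polynomial Matrix

namespace Vale.Agent.P011.H775

theorem exists_diag {Ω : Type} [Field Ω] {M : Matrix (Fin 3) (Fin 3) Ω} {a : Fin 3 → Ω}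
    (ha : Function.Injective a) (hM : ∀ i, M.charpoly.eval (a i) = 0) :
    ∃ Q : Matrix (Fin 3) (Fin 3) Ω, IsUnit Q ∧ M * Q = Q * Matrix.diagonal a := by
  have h1 : ∀ i, ∃ v : Fin 3 → Ω, v ≠ 0 ∧ M *ᵥ v = a i • v := fun i => by
    have h := hM i
    rw [Matrix.eval_charpoly] at h
    obtain ⟨v, hv, h0⟩ := Matrix.exists_mulVec_eq_zero_iff.2 h
    refine ⟨v, hv, ?_⟩
    rw [Matrix.sub_mulVec, sub_eq_zero] at h0
    rw [← h0]
    ext j
    simp [Matrix.scalar_apply, Matrix.mulVec_diagonal]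
  choose v hv hMv using h1
  have hli : LinearIndependent Ω v := by
    refine Module.End.eigenvectors_linearIndependent' (Matrix.toLin' M) a ha v fun i => ?_
    rw [Module.End.hasEigenvector_iff, Module.End.mem_eigenspace_iff]
    exact ⟨by rw [Matrix.toLin'_apply, hMv], hv i⟩
  refine ⟨Matrix.of fun i j => v j i, ?_, ?_⟩
  · rw [← Matrix.linearIndependent_cols_iff_isUnit]
    exact hli
  · ext i j
    have h := congrFun (hMv j) i
    rw [Matrix.mul_diagonal, Matrix.of_apply, mul_comm]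
    exact h

theorem adjugate_conj {Ω : Type} [Field Ω] (Q : (Matrix (Fin 3) (Fin 3) Ω)ˣ)
    (X : Matrix (Fin 3) (Fin 3) Ω) :
    ((Q⁻¹ : (Matrix (Fin 3) (Fin 3) Ω)ˣ).1 * X * Q.1).adjugate =
      (Q⁻¹ : (Matrix (Fin 3) (Fin 3) Ω)ˣ).1 * X.adjugate * Q.1 := by
  have h1 : ∀ P : (Matrix (Fin 3) (Fin 3) Ω)ˣ,
      P.1.adjugate = P.1.det • (P⁻¹ : (Matrix (Fin 3) (Fin 3) Ω)ˣ).1 := fun P => by
    have h := congrArg (fun Z => (P⁻¹ : (Matrix (Fin 3) (Fin 3) Ω)ˣ).1 * Z)
      (Matrix.mul_adjugate P.1)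
    simpa [← mul_assoc] using h
  have h2 : Q.1.det * (Q⁻¹ : (Matrix (Fin 3) (Fin 3) Ω)ˣ).1.det = 1 := by
    rw [← Matrix.det_mul, Units.mul_inv, Matrix.det_one]
  rw [Matrix.adjugate_mul_distrib, Matrix.adjugate_mul_distrib, h1, h1, inv_inv]
  rw [smul_mul_assoc, mul_smul_comm, mul_smul_comm, smul_smul, h2, one_smul, mul_assoc]

variable {k K F D : Type} [Field k] [Field K] [Field F] [Algebra k K] [Algebra k F]

/-- A splitting of `D` in which the cubic field `F` is diagonal. -/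
structure DSpl [Ring D] [Algebra k D] [Algebra K D] (C : Cub K D) (φ : F →ₐ[k] D)
    (Ω : Type) [Field Ω] [Algebra K Ω] where
  /-- the splitting -/
  f : D →ₐ[K] Matrix (Fin 3) (Fin 3) Ω
  /-- the three embeddings -/
  σ : Fin 3 → (F →+* Ω)
  inj : Function.Injective f
  tr : ∀ x, (f x).trace = algebraMap K Ω (C.T x)
  det : ∀ x, (f x).det = algebraMap K Ω (C.N x)
  adj : ∀ x, (f x).adjugate = f (C.adj x)
  base : ∀ i c, σ i (algebraMap k F c) = algebraMap K Ω (algebraMap k K c)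
  σinj : Function.Injective σ
  dg : ∀ x, f (φ x) = Matrix.diagonal fun i => σ i x
  trF : ∀ x, ∑ i, σ i x = algebraMap K Ω (algebraMap k K (Algebra.trace k F x))
  nmF : ∀ x, ∏ i, σ i x = algebraMap K Ω (algebraMap k K (Algebra.norm k x))

/-- Existence of a diagonal splitting, over the algebraic closure of any splitting field. -/
theorem exists_dspl_of [Ring D] [Nontrivial D] [Algebra k D] [Algebra K D]
    [IsScalarTower k K D] [FiniteDimensional k F] [Algebra.IsSeparable k F] (C : Cub K D)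
    (hF : finrank k F = 3) (φ : F →ₐ[k] D) (hφT : ∀ x, ∃ c, algebraMap k K c = C.T (φ x))
    (hφS : ∀ x, ∃ c, algebraMap k K c = C.S (φ x))
    (hφN : ∀ x, ∃ c, algebraMap k K c = C.N (φ x)) {Ω₀ : Type} [Field Ω₀] [Algebra K Ω₀]
    (f₀ : D →ₐ[K] Matrix (Fin 3) (Fin 3) Ω₀) (hf₀ : Function.Injective f₀)
    (hT₀ : ∀ x, (f₀ x).trace = algebraMap K Ω₀ (C.T x))
    (hN₀ : ∀ x, (f₀ x).det = algebraMap K Ω₀ (C.N x))
    (hA₀ : ∀ x, (f₀ x).adjugate = f₀ (C.adj x)) :
    ∃ (S : DSpl C φ (AlgebraicClosure Ω₀))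
      (Q : (Matrix (Fin 3) (Fin 3) (AlgebraicClosure Ω₀))ˣ), ∀ x, S.f x =
        (Q⁻¹ : (Matrix (Fin 3) (Fin 3) (AlgebraicClosure Ω₀))ˣ).1 *
          (f₀ x).map (algebraMap Ω₀ (AlgebraicClosure Ω₀)) * Q.1 := by
  set pb := Field.powerBasisOfFiniteOfSeparable k F
  set s := pb.gen with hs
  obtain ⟨t, ht⟩ := hφT s
  obtain ⟨e, he⟩ := hφS s
  obtain ⟨n, hn⟩ := hφN s
  set R : k[X] := X ^ 3 - Polynomial.C t * X ^ 2 + Polynomial.C e * X - Polynomial.C n with hR
  have hRm : R.Monic := by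
    rw [hR]
    monicity!
  have hRd : R.natDegree = 3 := by
    rw [hR]
    compute_degree!
  have hRs : aeval s R = 0 := by
    apply φ.toRingHom.injective
    have h := C.cayley (φ s)
    rw [← ht, ← he, ← hn] at h
    simp only [algebraMap_smul] at h
    have h2 : φ (aeval s R) = 0 := by
      rw [← Polynomial.aeval_algHom_apply, hR]
      simp only [map_sub, map_add, map_mul, map_pow, aeval_X, aeval_C]
      rw [← h]
      simp only [Algebra.smul_def, mul_one]
      noncomm_ring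
    simpa using h2
  have hdeg : (minpoly k s).natDegree = 3 := by
    rw [hs, pb.natDegree_minpoly, ← pb.finrank, hF]
  have hPR : minpoly k s = R := by
    refine (Polynomial.eq_of_monic_of_dvd_of_natDegree_le (minpoly.monic pb.isIntegral_gen) hRm
      (minpoly.dvd k s hRs) ?_).symm
    rw [hdeg, hRd]
  -- the splitting over the algebraic closure
  set Ω := AlgebraicClosure Ω₀ with hΩ
  let : Algebra k Ω := ((algebraMap K Ω).comp (algebraMap k K)).toAlgebra
  have : IsScalarTower k K Ω := IsScalarTower.of_algebraMap_eq fun x => rfl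
  let f₁ : D →ₐ[K] Matrix (Fin 3) (Fin 3) Ω :=
    (IsScalarTower.toAlgHom K Ω₀ Ω).mapMatrix.comp f₀
  have hf₁ : ∀ x, f₁ x = (f₀ x).map (algebraMap Ω₀ Ω) := fun x => rfl
  have hinj : Function.Injective f₁ := by
    intro x y hxy
    apply hf₀
    rw [hf₁, hf₁] at hxy
    exact Matrix.map_injective (algebraMap Ω₀ Ω).injective hxy
  have hT₁ : ∀ x, (f₁ x).trace = algebraMap K Ω (C.T x) := fun x => by
    rw [hf₁, IsScalarTower.algebraMap_apply K Ω₀ Ω, ← hT₀, Matrix.trace, Matrix.trace, map_sum]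
    rfl
  have hN₁ : ∀ x, (f₁ x).det = algebraMap K Ω (C.N x) := fun x => by
    rw [hf₁, IsScalarTower.algebraMap_apply K Ω₀ Ω, ← hN₀, RingHom.map_det]
    rfl
  have hA₁ : ∀ x, (f₁ x).adjugate = f₁ (C.adj x) := fun x => by
    rw [hf₁, hf₁, ← hA₀]
    exact (RingHom.map_adjugate (algebraMap Ω₀ Ω) (f₀ x)).symm
  have hcard : Fintype.card (F →ₐ[k] Ω) = 3 := by
    rw [AlgHom.card k F Ω, hF]
  let ee : Fin 3 ≃ (F →ₐ[k] Ω) := (Fintype.equivFinOfCardEq hcard).symm
  have ha : Function.Injective fun i => ee i s := by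
    intro i j hij
    apply ee.injective
    exact pb.algHom_ext hij
  have hchar : (f₁ (φ s)).charpoly = R.map (algebraMap k Ω) := by
    rw [mat_charpoly, hT₁, hN₁, hA₁, hT₁, hR]
    have e1 : C.T (C.adj (φ s)) = algebraMap k K e := he.symm
    rw [e1, ← ht, ← hn]
    simp only [Polynomial.map_sub, Polynomial.map_add, Polynomial.map_mul, Polynomial.map_pow,
      Polynomial.map_X, Polynomial.map_C]
    rfl
  have hroot : ∀ i, (f₁ (φ s)).charpoly.eval (ee i s) = 0 := fun i => by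
    rw [hchar, Polynomial.eval_map, ← Polynomial.aeval_def]
    have h := Polynomial.aeval_algHom_apply (ee i) s R
    rw [hRs, map_zero] at h
    exact h
  obtain ⟨Q₀, hQ₀, hQ⟩ := exists_diag ha hroot
  obtain ⟨Q, rfl⟩ := hQ₀
  let f : D →ₐ[K] Matrix (Fin 3) (Fin 3) Ω :=
    { toFun := fun x => (Q⁻¹ : (Matrix (Fin 3) (Fin 3) Ω)ˣ).1 * f₁ x * Q.1
      map_one' := by simp
      map_mul' := fun x y => by
        rw [map_mul]
        calc (Q⁻¹ : (Matrix (Fin 3) (Fin 3) Ω)ˣ).1 * (f₁ x * f₁ y) * Q.1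
            = (Q⁻¹ : (Matrix (Fin 3) (Fin 3) Ω)ˣ).1 * f₁ x * (1 * f₁ y) * Q.1 := by
              rw [one_mul]
              simp only [mul_assoc]
          _ = _ := by
              rw [← Units.mul_inv Q]
              simp only [mul_assoc]
      map_zero' := by simp
      map_add' := fun x y => by rw [map_add, mul_add, add_mul]
      commutes' := fun c => by
        rw [AlgHom.commutes, ← Algebra.commutes, mul_assoc, Units.inv_mul, mul_one] }
  have hf : ∀ x, f x = (Q⁻¹ : (Matrix (Fin 3) (Fin 3) Ω)ˣ).1 * f₁ x * Q.1 := fun x => rfl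
  refine ⟨{
    f := f
    σ := fun i => (ee i : F →+* Ω)
    inj := fun x y hxy => ?_
    tr := fun x => ?_
    det := fun x => ?_
    adj := fun x => ?_
    base := fun i c => ?_
    σinj := fun i j hij => ?_
    dg := ?_
    trF := fun x => ?_
    nmF := fun x => ?_ }, Q, fun x => rfl⟩
  · rw [hf, hf] at hxy
    apply hinj
    have h := congrArg (fun Z => Q.1 * Z * (Q⁻¹ : (Matrix (Fin 3) (Fin 3) Ω)ˣ).1) hxy
    simpa [mul_assoc] using h
  · rw [hf, Matrix.trace_mul_comm, ← mul_assoc, Units.mul_inv, one_mul, hT₁]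
  · rw [hf, Matrix.det_mul_comm, ← mul_assoc, Units.mul_inv, one_mul, hN₁]
  · rw [hf, hf, adjugate_conj, hA₁]
  · exact (ee i).commutes c
  · apply ee.injective
    exact AlgHom.coe_ringHom_injective hij
  · intro x
    let g₁ : F →ₐ[k] Matrix (Fin 3) (Fin 3) Ω := (f.restrictScalars k).comp φ
    let g₂ : F →ₐ[k] Matrix (Fin 3) (Fin 3) Ω :=
      (Matrix.diagonalAlgHom (n := Fin 3) (α := Ω) k).comp (AlgHom.pi fun i => ee i)
    have hg : g₁ = g₂ := by
      apply pb.algHom_ext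
      change f (φ s) = Matrix.diagonal fun i => ee i s
      rw [hf, mul_assoc, hQ, ← mul_assoc, Units.inv_mul, one_mul]
    exact congrArg (fun g : F →ₐ[k] Matrix (Fin 3) (Fin 3) Ω => g x) hg
  · have h := trace_eq_sum_embeddings (K := k) (L := F) Ω (x := x)
    rw [← Equiv.sum_comp ee fun τ => τ x] at h
    exact h.symm
  · have h := Algebra.norm_eq_prod_embeddings k (L := F) Ω x
    rw [← Equiv.prod_comp ee fun τ => τ x] at h
    exact h.symm

/-- Existence of a diagonal splitting. -/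
theorem exists_dspl [Ring D] [Nontrivial D] [Algebra k D] [Algebra K D]
    [IsScalarTower k K D] [FiniteDimensional k F] [Algebra.IsSeparable k F] (C : Cub K D)
    (hF : finrank k F = 3) (φ : F →ₐ[k] D) (hφT : ∀ x, ∃ c, algebraMap k K c = C.T (φ x))
    (hφS : ∀ x, ∃ c, algebraMap k K c = C.S (φ x))
    (hφN : ∀ x, ∃ c, algebraMap k K c = C.N (φ x)) :
    ∃ (Ω : Type) (_ : Field Ω) (_ : Algebra K Ω), Nonempty (DSpl C φ Ω) := by
  obtain ⟨Ω₀, _, _, f₀, hf₀, hT₀, hN₀, hA₀⟩ := C.spl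
  obtain ⟨S, -⟩ := exists_dspl_of C hF φ hφT hφS hφN f₀ hf₀ hT₀ hN₀ hA₀
  exact ⟨AlgebraicClosure Ω₀, inferInstance, inferInstance, ⟨S⟩⟩

end Vale.Agent.P011.H775
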