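import Vale.Agent.P011.H775.Par
import Mathlib.LinearAlgebra.QuadraticForm.Basic

/-!
# The normal form of the linear section in a chart
-/

set_option linter.unusedSectionVars false

open Module Polynomial Matrix

namespace Vale.Agent.P011.H775

/-- The retraction of `K` onto `k`. -/
noncomputable def rk (k : Type) {K : Type} [Field k] [Field K] [Algebra k K] : K →ₗ[k] k :=
  (2 : k)⁻¹ • Algebra.trace k K

/-- The adjoint on `F`. -/
noncomputable def sh (k : Type) {F : Type} [Field k] [Field F] [Algebra k F] (t : F) : F :=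
  t ^ 2 - algebraMap k F (Algebra.trace k F t) * t + algebraMap k F (e2 k t)

/-- The second symmetric function as a quadratic form. -/
noncomputable def e2Q (k F : Type) [Field k] [Field F] [Algebra k F] : QuadraticForm k F :=
  (2 : k)⁻¹ • (QuadraticMap.linMulLin (Algebra.trace k F) (Algebra.trace k F) -
    LinearMap.BilinMap.toQuadraticMap (Algebra.traceForm k F))

theorem e2Q_apply {k F : Type} [Field k] [Field F] [Algebra k F] (t : F) :
    e2Q k F t = e2 k t := by
  simp only [e2Q, e2, _root_.smul_apply, _root_.sub_apply,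
    QuadraticMap.linMulLin_apply, LinearMap.BilinMap.toQuadraticMap_apply,
    Algebra.traceForm_apply, smul_eq_mul]
  rw [div_eq_inv_mul, pow_two, pow_two]

/-- The polar form as a linear map. -/
noncomputable def e2pL (k : Type) {F : Type} [Field k] [Field F] [Algebra k F] (t : F) :
    F →ₗ[k] k :=
  Algebra.trace k F t • Algebra.trace k F - Algebra.traceForm k F t

theorem e2pL_apply {k F : Type} [Field k] [Field F] [Algebra k F] (t u : F) :
    e2pL k t u = e2p k t u := by
  simp only [e2pL, e2p, LinearMap.sub_apply, LinearMap.smul_apply, smul_eq_mul,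
    Algebra.traceForm_apply]

variable {k K F D : Type} [Field k] [Field K] [Field F] [Algebra k K] [Algebra k F]

section ring

variable [Ring D] [Algebra k D] [Algebra K D] [IsScalarTower k K D]

/-- The action as a linear map in the field variable. -/
noncomputable def actL (C : Cub K D) (φ : F →ₐ[k] D) (v : D) : F →ₗ[k] D where
  toFun w := act C φ w v
  map_add' w w' := by
    simp only [act, map_add, add_smul, add_mul, mul_add]
    abel
  map_smul' c w := by
    have e : C.T (φ (c • w)) = algebraMap k K c * C.T (φ w) := by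
      rw [map_smul, ← algebraMap_smul K c (φ w), map_smul, smul_eq_mul]
    rw [act, act, e, map_smul, RingHom.id_apply, smul_sub, smul_sub, smul_mul_assoc,
      mul_smul_comm, mul_smul, algebraMap_smul]

theorem actL_apply (C : Cub K D) (φ : F →ₐ[k] D) (v : D) (w : F) :
    actL C φ v w = act C φ w v := rfl

end ring

section star

variable [StarRing K] [DivisionRing D] [StarRing D] [Algebra k D] [Algebra K D]
  [FiniteDimensional K D] [Algebra.IsCentral K D] [IsScalarTower k K D]
  [FiniteDimensional k F] [Algebra.IsSeparable k F]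

section H

variable {C : Cub K D} {φ : F →ₐ[k] D} {p : D} (H : Cfd C φ p)

include H

theorem Cfd.rk_eq {c : K} (hc : star c = c) : algebraMap k K (rk k c) = c := by
  obtain ⟨c', rfl⟩ := H.hfix c hc
  congr 1
  rw [rk, LinearMap.smul_apply, Algebra.trace_algebraMap, H.hK, nsmul_eq_mul, smul_eq_mul]
  have := H.h2
  push_cast
  field_simp

theorem Cfd.T_φ (w : F) : C.T (φ w) = algebraMap k K (Algebra.trace k F w) := by
  obtain ⟨Ω, _, _, ⟨S⟩⟩ := H.exists_dspl
  apply (algebraMap K Ω).injective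
  rw [S.T_φ, S.trace_eq]

theorem Cfd.N_φ (w : F) : C.N (φ w) = algebraMap k K (Algebra.norm k w) := by
  obtain ⟨Ω, _, _, ⟨S⟩⟩ := H.exists_dspl
  apply (algebraMap K Ω).injective
  rw [← S.det, S.dg, Matrix.det_diagonal, S.nmF]

theorem Cfd.adj_φ (w : F) : C.adj (φ w) = φ (sh k w) := by
  obtain ⟨Ω, _, _, ⟨S⟩⟩ := H.exists_dspl
  apply S.inj
  have e : ∀ i, S.σ i (sh k w) = S.σ i w ^ 2 - (S.σ 0 w + S.σ 1 w + S.σ 2 w) * S.σ i w +
      (S.σ 1 w * S.σ 2 w + S.σ 2 w * S.σ 0 w + S.σ 0 w * S.σ 1 w) := fun i => by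
    rw [sh, map_add, map_sub, map_mul, map_pow, S.base, S.base, S.trace_eq, S.e2_eq H.h2]
  rw [← S.adj, S.dg, S.dg, Matrix.adjugate_fin_three]
  ext i j
  fin_cases i <;> fin_cases j <;> simp [e] <;> ring

end H

theorem star_cr {C : Cub K D} (hD : finrank K D = 3 ^ 2)
    (hss : ∀ c : K, star (algebraMap K D c) = algebraMap K D (star c)) (x y : D) :
    C.cr (star x) (star y) = star (C.cr x y) := by
  have h : ∀ a b : D, C.cr a b = C.adj (a + b) - C.adj a - C.adj b := fun a b => by
    rw [C.adj_add]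
    abel
  rw [h, h, ← star_add, star_adj hD hss, star_adj hD hss, star_adj hD hss, star_sub, star_sub]

/-- The data of a chart. -/
structure Dat (C : Cub K D) (φ : F →ₐ[k] D) where
  /-- the twisting element of the involution -/
  p : D
  /-- the first element of the chart -/
  g : D
  /-- the second element of the chart -/
  y : D
  /-- the square root of `d` -/
  δ : K
  /-- the discriminant -/
  d : k
  /-- the norm of `p` -/
  n : k
  /-- an element of trace zero -/
  a : F
  /-- an element of trace zero -/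
  b : F
  H : Cfd C φ p
  hδ : star δ = -δ
  hd : δ ^ 2 = algebraMap k K d
  d0 : d ≠ 0
  hn : C.N p = algebraMap k K n
  ha : Algebra.trace k F a = 0
  hb : Algebra.trace k F b = 0
  D00 : D0 k a b ≠ 0
  h3 : (3 : k) ≠ 0
  hg : star g = g
  hy : star y = y
  prh : pr C φ (p * g) = 0
  prh0 : pr C φ (C.adj (p * g)) ≠ 0

namespace Dat

variable {C : Cub K D} {φ : F →ₐ[k] D} (M : Dat C φ)

/-- The base vector of `V`. -/
def h : D := M.p * M.g

/-- The twisted base vector. -/
def h' : D := tw φ M.δ M.a M.b M.h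

/-- The vector of the linear condition. -/
def jp : D := (M.y - C.cr M.g M.y) * M.p⁻¹

/-- The vector of the cubic form. -/
noncomputable def Gp : D := (M.g - algebraMap k K M.d • C.adj M.y) * M.p⁻¹

/-- The parameter of the linear condition. -/
noncomputable def w₀ : F :=
  -(algebraMap k F (M.d * M.n / 2)) * pr C φ M.jp / pr C φ (C.adj M.h)

/-- The parametrisation of the solutions of the linear condition. -/
noncomputable def L : F × k →ₗ[k] D :=
  (actL C φ M.h').comp (LinearMap.fst k F k) +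
    (LinearMap.snd k F k).smulRight (act C φ M.w₀ M.h)

theorem L_apply (z : F × k) : M.L z = par C φ M.δ M.a M.b M.h (z.2 • M.w₀) z.1 := by
  rw [L, LinearMap.add_apply, LinearMap.comp_apply, LinearMap.smulRight_apply,
    LinearMap.fst_apply, LinearMap.snd_apply, actL_apply, par, ← actL_apply C φ M.h (z.2 • M.w₀),
    map_smul, actL_apply, add_comm]
  rfl

theorem h_inV : InV C φ M.p M.h := by
  refine ⟨?_, M.prh⟩
  change M.p * star (M.p * M.g) = M.p * M.g * M.p
  rw [star_mul, M.hg, M.H.hp, mul_assoc]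

theorem h'_inV : InV C φ M.p M.h' := M.H.tw_inV M.hδ M.a M.b M.h_inV

theorem sy_mul_inv {z : D} (hz : star z = z) : Sy M.p (z * M.p⁻¹) := by
  change M.p * star (z * M.p⁻¹) = z * M.p⁻¹ * M.p
  rw [star_mul, star_inv₀, M.H.hp, hz, ← mul_assoc, mul_inv_cancel₀ M.H.hp0, one_mul, mul_assoc,
    inv_mul_cancel₀ M.H.hp0, mul_one]

theorem jp_sy : Sy M.p M.jp := by
  apply M.sy_mul_inv
  rw [star_sub, ← star_cr M.H.hD M.H.hss, M.hg, M.hy]

theorem Gp_sy : Sy M.p M.Gp := by
  apply M.sy_mul_inv
  rw [star_sub, star_smul' M.H.hss, M.H.hfix', ← star_adj M.H.hD M.H.hss, M.hg, M.hy]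

theorem L_inV (z : F × k) : InV C φ M.p (M.L z) := by
  rw [L_apply]
  exact M.H.par_inV M.hδ M.h_inV _ _

/-- The constant in the quadratic form. -/
noncomputable def q₀ : K :=
  algebraMap k K M.d ^ 2 * C.T (M.g * C.adj M.y) - algebraMap k K M.d ^ 2 * C.T (M.y * M.y) +
    algebraMap k K M.d

/-- The coefficient of the quadratic form at infinity. -/
noncomputable def c₁ : k := M.d * D0 k M.a M.b * rk k (C.N M.h)

/-- The linear factor of the quadratic form. -/
noncomputable def ell : F × k →ₗ[k] k :=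
  (rk k (C.N M.h') / (M.d * D0 k M.a M.b)) • ((e2pL k M.w₀).comp (LinearMap.fst k F k)) +
    (M.n * M.d) • ((rk k).comp ((C.T.restrictScalars k).comp
      ((LinearMap.mulLeft k M.jp).comp M.L))) +
    (rk k (C.N M.h) * e2 k M.w₀ + M.n * rk k M.q₀) • LinearMap.snd k F k

/-- The quadratic form. -/
noncomputable def Q : QuadraticForm k (F × k) :=
  M.c₁ • (e2Q k F).comp (LinearMap.fst k F k) +
    QuadraticMap.linMulLin (LinearMap.snd k F k) M.ell

theorem Q_apply (z : F × k) : M.Q z = M.c₁ * e2 k z.1 + z.2 * M.ell z := by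
  rw [Q, _root_.add_apply, _root_.smul_apply, QuadraticMap.comp_apply, e2Q_apply,
    QuadraticMap.linMulLin_apply, smul_eq_mul]
  rfl

theorem star_N_h : star (C.N M.h) = C.N M.h := (M.H.star_coeff M.h_inV.sy).2.2

theorem star_N_h' : star (C.N M.h') = C.N M.h' := (M.H.star_coeff M.h'_inV.sy).2.2

include M in
theorem star_T_mul {u v : D} (hu : star u = u) (hv : star v = v) :
    star (C.T (u * v)) = C.T (u * v) := by
  rw [← (C.star_coeff M.H.hD M.H.hss (u * v)).1, star_mul, hu, hv, C.T_comm]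

include M in
theorem star_adj_of {u : D} (hu : star u = u) : star (C.adj u) = C.adj u := by
  rw [← star_adj M.H.hD M.H.hss, hu]

theorem star_q₀ : star M.q₀ = M.q₀ := by
  have e1 := M.star_T_mul M.hg (M.star_adj_of M.hy)
  have e2 := M.star_T_mul M.hy M.hy
  simp only [q₀, star_add, star_sub, star_mul', star_pow, M.H.hfix', e1, e2]

/-- The quadratic form in terms of the algebra. -/
theorem Q_eq (z : F × k) : algebraMap k K (M.Q z) =
    C.T (M.h * C.adj (M.L z)) + algebraMap k K (M.n * M.d * z.2) * C.T (M.jp * M.L z) +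
      algebraMap k K (M.n * z.2 ^ 2) * M.q₀ := by
  have h1 := M.H.T_mul_adj_par M.hδ M.hd M.ha M.hb M.h3 M.h_inV (z.2 • M.w₀) z.1
  rw [← L_apply] at h1
  have hdD : M.d * D0 k M.a M.b ≠ 0 := mul_ne_zero M.d0 M.D00
  have e1 : e2 k (z.2 • M.w₀) = z.2 ^ 2 * e2 k M.w₀ := by
    rw [← e2Q_apply, ← e2Q_apply, QuadraticMap.map_smul, smul_eq_mul, pow_two]
  have e2' : e2p k (z.2 • M.w₀) z.1 = z.2 * e2p k M.w₀ z.1 := by
    simp only [e2p, map_smul, smul_mul_assoc, smul_eq_mul]
    ring
  have hN := M.H.rk_eq M.star_N_h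
  have hN' := M.H.rk_eq M.star_N_h'
  have hT := M.H.rk_eq (M.H.star_T_mul M.jp_sy (M.L_inV z).sy)
  have hq := M.H.rk_eq M.star_q₀
  have hell : M.ell z = rk k (C.N M.h') / (M.d * D0 k M.a M.b) * e2p k M.w₀ z.1 +
      M.n * M.d * rk k (C.T (M.jp * M.L z)) +
      (rk k (C.N M.h) * e2 k M.w₀ + M.n * rk k M.q₀) * z.2 := by
    simp only [ell, LinearMap.add_apply, LinearMap.smul_apply, LinearMap.comp_apply,
      LinearMap.fst_apply, LinearMap.snd_apply, e2pL_apply, smul_eq_mul,
      LinearMap.restrictScalars_apply, LinearMap.mulLeft_apply]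
  have hdD' : algebraMap k K (M.d * D0 k M.a M.b) ≠ 0 := (_root_.map_ne_zero _).2 hdD
  rw [e1, e2', ← hN] at h1
  have hh' : C.N (tw φ M.δ M.a M.b M.h) = algebraMap k K (rk k (C.N M.h')) := hN'.symm
  rw [hh'] at h1
  apply mul_left_cancel₀ hdD'
  have h00 := M.d0
  have h01 := M.D00
  rw [mul_add, mul_add, h1, Q_apply, hell, c₁]
  generalize rk k (C.T (M.jp * M.L z)) = T1 at hT ⊢
  generalize rk k M.q₀ = q1 at hq ⊢
  rw [← hT, ← hq]
  simp only [← map_mul, ← map_add]
  congr 1
  field_simp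
  ring

/-- The first coefficient of `A`. -/
noncomputable def al : F := -algebraMap k F (M.d * D0 k M.a M.b) * pr C φ (C.adj M.h)

/-- The second coefficient of `A`. -/
noncomputable def be : F :=
  M.w₀ ^ 2 * pr C φ (C.adj M.h) + algebraMap k F (M.n * M.d) * pr C φ M.Gp

/-- The linear coefficient of the Skolem equation. -/
noncomputable def A (z : F × k) : F := M.al * z.1 ^ 2 + M.be * algebraMap k F (z.2 ^ 2)

/-- The constant in the cubic form. -/
noncomputable def κ₀ : K :=
  2 * algebraMap k K M.d ^ 3 * C.N M.y - algebraMap k K M.d ^ 2 * C.T (M.g * M.y)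

/-- The constant coefficient of the Skolem equation. -/
noncomputable def G (z : F × k) : k :=
  rk k (C.N (M.L z) + algebraMap k K (M.n * M.d * z.2 ^ 2) * C.T (M.Gp * M.L z) +
    algebraMap k K (M.n * z.2 ^ 3) * M.κ₀)

theorem al_ne_zero : M.al ≠ 0 := by
  rw [al]
  refine mul_ne_zero (neg_ne_zero.2 ((_root_.map_ne_zero _).2 (mul_ne_zero M.d0 M.D00))) M.prh0

theorem A_eq (z : F × k) : M.A z = pr C φ (C.adj (M.L z)) +
    algebraMap k F (M.n * M.d * z.2 ^ 2) * pr C φ M.Gp := by
  have h1 := M.H.pr_adj_par M.hδ M.hd M.ha M.hb M.h3 M.h_inV (z.2 • M.w₀) z.1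
  rw [← L_apply] at h1
  rw [h1, A, al, be, Algebra.smul_def]
  simp only [map_mul, map_pow]
  ring

theorem star_κ₀ : star M.κ₀ = M.κ₀ := by
  have e1 : star (C.N M.y) = C.N M.y := by
    rw [← (C.star_coeff M.H.hD M.H.hss M.y).2.2, M.hy]
  have e2 := M.star_T_mul M.hg M.hy
  simp only [κ₀, star_sub, star_mul', star_pow, M.H.hfix', e1, e2, star_ofNat]

theorem star_G (z : F × k) :
    star (C.N (M.L z) + algebraMap k K (M.n * M.d * z.2 ^ 2) * C.T (M.Gp * M.L z) +
      algebraMap k K (M.n * z.2 ^ 3) * M.κ₀) =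
    C.N (M.L z) + algebraMap k K (M.n * M.d * z.2 ^ 2) * C.T (M.Gp * M.L z) +
      algebraMap k K (M.n * z.2 ^ 3) * M.κ₀ := by
  have e1 := (M.H.star_coeff (M.L_inV z).sy).2.2
  have e2 := M.H.star_T_mul M.Gp_sy (M.L_inV z).sy
  simp only [star_add, star_mul', M.H.hfix', e1, e2, M.star_κ₀]

theorem G_eq (z : F × k) : algebraMap k K (M.G z) =
    C.N (M.L z) + algebraMap k K (M.n * M.d * z.2 ^ 2) * C.T (M.Gp * M.L z) +
      algebraMap k K (M.n * z.2 ^ 3) * M.κ₀ :=
  M.H.rk_eq (M.star_G z)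

/-- The point of the chart attached to a solution of the Skolem equation. -/
noncomputable def xi (z : F × k) (e : F) : D :=
  M.p⁻¹ * (φ e + M.L z) - algebraMap k K (M.d * z.2) • M.y

theorem star_xi (z : F × k) (e : F) : star (M.xi z e) = M.xi z e := by
  have e1 : Sy M.p (φ e + M.L z) := (M.H.hφ e).add (M.L_inV z).sy
  have e2 : star (M.p⁻¹ * (φ e + M.L z)) = M.p⁻¹ * (φ e + M.L z) := by
    have e3 := e1.eq M.H.hp0
    rw [star_mul, star_inv₀, M.H.hp]
    conv_rhs => rw [e3]
    rw [← mul_assoc, ← mul_assoc, inv_mul_cancel₀ M.H.hp0, one_mul]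
  rw [xi, star_sub, e2, star_smul' M.H.hss, M.H.hfix', M.hy]

/-- **The Skolem surface of a point of the parameter quadric.** -/
theorem main {z : F × k} (hQ : M.Q z = 0) {e : F}
    (hS : Algebra.norm k e + Algebra.trace k F (e * M.A z) + M.G z = 0) :
    C.Qf (algebraMap k K M.d) M.g M.y (algebraMap k K z.2) (M.xi z e) = 0 ∧
    C.Cf (algebraMap k K M.d) M.g M.y (algebraMap k K z.2) (M.xi z e) = 0 := by
  have hv := M.L_inV z
  have hn0 : C.N M.p ≠ 0 := C.N_ne_zero M.H.hp0
  have h1 := M.H.pr_cr_par M.hδ (f := M.a) (g := M.b) M.ha M.hb M.h_inV (z.2 • M.w₀) z.1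
  rw [← L_apply] at h1
  have key := C.skolem_form (algebraMap k K M.d) (b := 1) (b' := M.p) one_ne_zero M.H.hp0 M.g M.y
    (M.L z) (φ e) (algebraMap k K z.2) (n := C.N M.p) (h := M.h) (e' := M.jp) (G' := M.Gp)
    (by rw [C.N_one, one_mul]) (by rw [mul_one, h]) (by rw [inv_one, one_mul, jp])
    (by rw [inv_one, one_mul, Gp]) ?_ ?_ ?_ ?_ ?_
  · rw [inv_one, mul_one, ← map_mul] at key
    exact key
  · rw [M.H.adj_φ, C.T_comm, M.H.T_mul_pr M.h_inV.sy, M.h_inV.pr0, mul_zero, map_zero, map_zero]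
  · have hsy : Sy M.p (C.cr M.h (M.L z) +
        (C.N M.p * algebraMap k K M.d * algebraMap k K z.2) • M.jp) := by
      refine (M.H.cr_sy M.h_inV.sy hv.sy).add (M.H.smul_K M.jp_sy ?_)
      rw [M.hn, ← map_mul, ← map_mul, M.H.hfix']
    rw [C.T_comm, M.H.T_mul_pr hsy, map_add, h1, M.hn, ← map_mul, ← map_mul, algebraMap_smul,
      map_smul, Algebra.smul_def, Algebra.smul_def, w₀]
    have h2 := M.H.h2
    have h2' : (2 : F) ≠ 0 := by
      have h := (_root_.map_ne_zero (algebraMap k F)).2 h2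
      rwa [map_ofNat] at h
    have h3 := M.prh0
    have h4 : pr C φ (C.adj M.h) ≠ 0 := h3
    have h5 : 2 * (algebraMap k F z.2 * (-(algebraMap k F (M.d * M.n / 2)) * pr C φ M.jp /
        pr C φ (C.adj M.h))) * pr C φ (C.adj M.h) +
        algebraMap k F (M.n * M.d * z.2) * pr C φ M.jp = 0 := by
      simp only [map_mul, map_div₀, map_ofNat]
      field_simp
      ring
    rw [h5, mul_zero, map_zero, map_zero]
  · have h2 := M.Q_eq z
    rw [hQ, map_zero] at h2
    rw [M.hn, h2]
    simp only [q₀, map_mul, map_pow]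
  · rw [M.H.adj_φ, M.H.T_mul_pr hv.sy, hv.pr0, mul_zero, map_zero, map_zero]
  · have hsy : Sy M.p (C.adj (M.L z) +
        (C.N M.p * algebraMap k K M.d * algebraMap k K z.2 ^ 2) • M.Gp) := by
      refine (M.H.adj_sy hv.sy).add (M.H.smul_K M.Gp_sy ?_)
      rw [M.hn, ← map_pow, ← map_mul, ← map_mul, M.H.hfix']
    have hA : pr C φ (C.adj (M.L z) +
        (C.N M.p * algebraMap k K M.d * algebraMap k K z.2 ^ 2) • M.Gp) = M.A z := by
      rw [M.hn, ← map_pow, ← map_mul, ← map_mul, map_add, algebraMap_smul, map_smul,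
        Algebra.smul_def, A_eq]
    have h2 := M.G_eq z
    rw [M.H.N_φ, M.H.T_mul_pr hsy, hA, M.hn]
    have h3 : C.N (M.L z) + algebraMap k K M.n * algebraMap k K M.d * algebraMap k K z.2 ^ 2 *
        C.T (M.Gp * M.L z) + algebraMap k K M.n * algebraMap k K z.2 ^ 3 *
        (2 * algebraMap k K M.d ^ 3 * C.N M.y - algebraMap k K M.d ^ 2 * C.T (M.g * M.y)) =
        algebraMap k K (M.G z) := by
      rw [h2, κ₀]
      simp only [map_mul, map_pow]
    rw [h3, ← map_add, ← map_add, hS, map_zero]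

end Dat

end star

end Vale.Agent.P011.H775
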