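import Vale.Agent.P011.H775.M3c
import Mathlib.Algebra.MvPolynomial.Funext
import Mathlib.LinearAlgebra.Vandermonde
import Mathlib.RingTheory.TensorProduct.Basic
import Mathlib.LinearAlgebra.Dimension.Constructions

/-!
# The point at infinity is locally solvable where the algebra splits
-/

set_option linter.unusedSectionVars false

open Module Polynomial Matrix TensorProduct

namespace Vale.Agent.P011.H775

/-- Trace, norm and adjoint in any splitting. -/
theorem Cub.of_split {K D : Type} [Field K] [DivisionRing D] [Algebra K D]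
    [FiniteDimensional K D] [Algebra.IsCentral K D] (C : Cub K D) (hD : finrank K D = 3 ^ 2)
    {Ω : Type} [Field Ω] [Algebra K Ω] (g : D →ₐ[K] Matrix (Fin 3) (Fin 3) Ω) :
    (∀ x, (g x).trace = algebraMap K Ω (C.T x)) ∧ (∀ x, (g x).det = algebraMap K Ω (C.N x)) ∧
      ∀ x, (g x).adjugate = g (C.adj x) := by
  obtain ⟨Ω₀, _, _, f, hf, hT, hN, hA⟩ := C.spl
  have hi : Function.Injective (algebraMap K Ω₀) := (algebraMap K Ω₀).injective
  have hS : ∀ x, (f x).adjugate.trace = algebraMap K Ω₀ (C.S x) := fun x => by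
    rw [hA, hT]
    rfl
  have key : ∀ x, (g x).trace = algebraMap K Ω (C.T x) ∧
      (g x).adjugate.trace = algebraMap K Ω (C.S x) ∧
      (g x).det = algebraMap K Ω (C.N x) := fun x => by
    have h1 : (f x).charpoly = (X ^ 3 - Polynomial.C (C.T x) * X ^ 2 + Polynomial.C (C.S x) * X -
        Polynomial.C (C.N x)).map (algebraMap K Ω₀) := by
      rw [mat_charpoly, hT, hS, hN]
      simp only [Polynomial.map_sub, Polynomial.map_add, Polynomial.map_mul, Polynomial.map_pow,
        Polynomial.map_X, Polynomial.map_C]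
    have h2 := H268.charpoly_compare' (by norm_num) hD f g x h1
    rw [mat_charpoly] at h2
    have g0 := congrArg (fun Q => Polynomial.coeff Q 0) h2
    have g1 := congrArg (fun Q => Polynomial.coeff Q 1) h2
    have g2 := congrArg (fun Q => Polynomial.coeff Q 2) h2
    simp only [Polynomial.map_sub, Polynomial.map_add, Polynomial.map_mul, Polynomial.map_pow,
      Polynomial.map_X, Polynomial.map_C, coeff_sub, coeff_add, coeff_X_pow, coeff_C_mul, coeff_X,
      coeff_C] at g0 g1 g2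
    norm_num at g0 g1 g2
    exact ⟨g2, g1, g0⟩
  refine ⟨fun x => (key x).1, fun x => (key x).2.2, fun x => ?_⟩
  rw [mat_cayley, (key x).1, (key x).2.1, C.adj_eq, map_add, map_sub, map_mul, map_smul, map_smul,
    map_one, algebraMap_smul, algebraMap_smul]

section cyc

/-- The determinant of `w`, `M w`, `M² w`. -/
def cyc {R : Type*} [CommRing R] (M : Matrix (Fin 3) (Fin 3) R) (w : Fin 3 → R) : R :=
  (Matrix.of ![w, M *ᵥ w, M *ᵥ (M *ᵥ w)]).det

theorem cyc_map {R S : Type*} [CommRing R] [CommRing S] (f : R →+* S)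
    (M : Matrix (Fin 3) (Fin 3) R) (w : Fin 3 → R) :
    f (cyc M w) = cyc (M.map f) (f ∘ w) := by
  have e : ∀ v : Fin 3 → R, f ∘ (M *ᵥ v) = M.map f *ᵥ (f ∘ v) := fun v => by
    ext i
    simp [Matrix.mulVec, dotProduct, map_sum]
  rw [cyc, cyc, RingHom.map_det]
  congr 1
  rw [← e, ← e]
  ext i j
  fin_cases i <;> rfl

/-- A matrix diagonalisable with distinct eigenvalues over an extension has a cyclic vector. -/
theorem exists_cyc {Ω B : Type} [Field Ω] [Infinite Ω] [Field B] [Algebra Ω B]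
    {M : Matrix (Fin 3) (Fin 3) Ω} {Q : (Matrix (Fin 3) (Fin 3) B)ˣ} {a : Fin 3 → B}
    (ha : Function.Injective a)
    (hM : (Q⁻¹ : (Matrix (Fin 3) (Fin 3) B)ˣ).1 * M.map (algebraMap Ω B) * Q.1 =
      Matrix.diagonal a) : ∃ w : Fin 3 → Ω, cyc M w ≠ 0 := by
  by_contra hcon
  push Not at hcon
  have h0 : cyc (M.map (MvPolynomial.C (σ := Fin 3))) (MvPolynomial.X (R := Ω)) = 0 := by
    apply MvPolynomial.funext
    intro w
    rw [cyc_map (MvPolynomial.eval w), map_zero, ← hcon w]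
    congr 1
    · ext i j
      simp
    · ext i
      simp
  set v : Fin 3 → B := Q.1 *ᵥ fun _ => 1 with hv
  have h1 := congrArg (MvPolynomial.aeval v) h0
  rw [map_zero] at h1
  have h2 : (MvPolynomial.aeval v : MvPolynomial (Fin 3) Ω →ₐ[Ω] B).toRingHom
      (cyc (M.map (MvPolynomial.C (σ := Fin 3))) (MvPolynomial.X (R := Ω))) =
      cyc (M.map (algebraMap Ω B)) v := by
    rw [cyc_map]
    congr 1
    · ext i j
      simp
    · ext i
      simp
  have h3 : cyc (M.map (algebraMap Ω B)) v = 0 := by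
    rw [← h2]
    exact h1
  have hMQ : M.map (algebraMap Ω B) * Q.1 = Q.1 * Matrix.diagonal a := by
    rw [← hM, ← mul_assoc, ← mul_assoc, Units.mul_inv, one_mul]
  have hk : ∀ u : Fin 3 → B, M.map (algebraMap Ω B) *ᵥ (Q.1 *ᵥ u) = Q.1 *ᵥ (fun i => a i * u i) :=
    fun u => by
      rw [Matrix.mulVec_mulVec, hMQ, ← Matrix.mulVec_mulVec]
      congr 1
      ext i
      rw [Matrix.mulVec_diagonal]
  rw [cyc, hv, hk, hk] at h3
  have h4 : Matrix.of ![Q.1 *ᵥ (fun _ : Fin 3 => (1 : B)), Q.1 *ᵥ (fun i => a i * 1),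
      Q.1 *ᵥ (fun i => a i * (a i * 1))] =
      Matrix.of ![(fun _ : Fin 3 => (1 : B)), fun i => a i, fun i => a i ^ 2] * Q.1ᵀ := by
    ext i j
    fin_cases i <;>
      simp [Matrix.mul_apply, Matrix.mulVec, dotProduct, Fin.sum_univ_three, pow_two, mul_comm]
  rw [h4, Matrix.det_mul, Matrix.det_transpose] at h3
  have hQ : Q.1.det ≠ 0 := by
    have h := (Matrix.isUnit_iff_isUnit_det Q.1).1 Q.isUnit
    exact h.ne_zero
  have h5 := (mul_eq_zero.1 h3).resolve_right hQ
  have h6 : (Matrix.of ![(fun _ : Fin 3 => (1 : B)), fun i => a i, fun i => a i ^ 2]).det =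
      (a 1 - a 0) * (a 2 - a 0) * (a 2 - a 1) := by
    rw [Matrix.det_fin_three]
    simp
    ring
  rw [h6] at h5
  rcases mul_eq_zero.1 h5 with h7 | h7
  · rcases mul_eq_zero.1 h7 with h8 | h8
    · exact absurd (ha (sub_eq_zero.1 h8)) (by decide)
    · exact absurd (ha (sub_eq_zero.1 h8)) (by decide)
  · exact absurd (ha (sub_eq_zero.1 h7)) (by decide)

end cyc

variable {k K F D : Type} [Field k] [Field K] [Field F] [Algebra k K] [Algebra k F]

variable [StarRing K] [DivisionRing D] [StarRing D] [Algebra k D] [Algebra K D]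
  [FiniteDimensional K D] [Algebra.IsCentral K D] [IsScalarTower k K D]
  [FiniteDimensional k F] [Algebra.IsSeparable k F]

variable {C : Cub K D} {φ : F →ₐ[k] D} {p : D} (H : Cfd C φ p)

section Psi

variable {Ω : Type} [Field Ω] [Algebra k Ω] [Algebra K Ω] [IsScalarTower k K Ω]
  (g : D →ₐ[K] Matrix (Fin 3) (Fin 3) Ω) (φ)

/-- The action of `F ⊗ Ω` on `Ω³`. -/
noncomputable def Psi : Ω ⊗[k] F →ₐ[Ω] Matrix (Fin 3) (Fin 3) Ω :=
  Algebra.TensorProduct.lift (Algebra.ofId Ω _) ((g.restrictScalars k).comp φ) fun x y => by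
    have h : Commute (Algebra.ofId Ω (Matrix (Fin 3) (Fin 3) Ω) x)
        (((g.restrictScalars k).comp φ) y) := Algebra.commutes x _
    exact h

theorem Psi_tmul (c : Ω) (x : F) : Psi φ g (c ⊗ₜ x) = c • g (φ x) := by
  rw [Psi, Algebra.TensorProduct.lift_tmul, Algebra.ofId_apply, ← Algebra.smul_def]
  rfl

end Psi

include H

/-- **A point of the Skolem surface at infinity over any splitting field.** -/
theorem Cfd.exists_point {v : D} (hv : InV C φ p v) {Ω : Type} [Field Ω] [Infinite Ω]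
    [Algebra k Ω] [Algebra K Ω] [IsScalarTower k K Ω]
    (g : D →ₐ[K] Matrix (Fin 3) (Fin 3) Ω) : ∃ f : Ω ⊗[k] F,
      Algebra.norm Ω f + Algebra.trace Ω (Ω ⊗[k] F) ((1 ⊗ₜ pr C φ (C.adj v)) * f) +
        algebraMap K Ω (C.N v) = 0 := by
  obtain ⟨hT, hN, hA⟩ := C.of_split H.hD g
  have hinj : Function.Injective g := g.toRingHom.injective
  obtain ⟨S, Q, hQ⟩ := exists_dspl_of C H.hF φ (fun x => H.exists_T (H.hφ x))
    (fun x => H.exists_S (H.hφ x)) (fun x => H.exists_N (H.hφ x)) g hinj hT hN hA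
  obtain ⟨s, hs⟩ := S.exists_gen
  obtain ⟨w, hw⟩ := exists_cyc (M := g (φ s)) (Q := Q) (a := fun i => S.σ i s) hs
    (by rw [← hQ, S.dg])
  -- the cyclic module
  let β : Ω ⊗[k] F →ₗ[Ω] (Fin 3 → Ω) :=
    { toFun := fun r => Psi φ g r *ᵥ w
      map_add' := fun r r' => by rw [map_add, Matrix.add_mulVec]
      map_smul' := fun c r => by rw [map_smul, Matrix.smul_mulVec, RingHom.id_apply] }
  have hβ : ∀ r, β r = Psi φ g r *ᵥ w := fun r => rfl
  have hsurj : Function.Surjective β := by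
    have hli : LinearIndependent Ω
        (Matrix.of ![w, g (φ s) *ᵥ w, g (φ s) *ᵥ (g (φ s) *ᵥ w)]).row := by
      rw [Matrix.linearIndependent_rows_iff_isUnit, Matrix.isUnit_iff_isUnit_det]
      exact isUnit_iff_ne_zero.2 hw
    have hspan := hli.span_eq_top_of_card_eq_finrank (by simp)
    rw [← LinearMap.range_eq_top, eq_top_iff, ← hspan, Submodule.span_le]
    rintro _ ⟨i, rfl⟩
    fin_cases i
    · exact ⟨1 ⊗ₜ 1, by rw [hβ, Psi_tmul, one_smul, map_one, map_one, Matrix.one_mulVec]; rfl⟩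
    · exact ⟨1 ⊗ₜ s, by rw [hβ, Psi_tmul, one_smul]; rfl⟩
    · exact ⟨1 ⊗ₜ (s * s), by
        rw [hβ, Psi_tmul, one_smul, map_mul, map_mul, ← Matrix.mulVec_mulVec]; rfl⟩
  have hfr : finrank Ω (Ω ⊗[k] F) = finrank Ω (Fin 3 → Ω) := by
    rw [Module.finrank_baseChange, H.hF, Module.finrank_fin_fun]
  have hinjβ : Function.Injective β :=
    (LinearMap.injective_iff_surjective_of_finrank_eq_finrank hfr).2 hsurj
  let B : (Ω ⊗[k] F) ≃ₗ[Ω] (Fin 3 → Ω) := LinearEquiv.ofBijective β ⟨hinjβ, hsurj⟩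
  have hB : ∀ r, B r = Psi φ g r *ᵥ w := fun r => rfl
  have hconj : ∀ r : Ω ⊗[k] F, (Psi φ g r).toLin' =
      (B : (Ω ⊗[k] F) →ₗ[Ω] (Fin 3 → Ω)) ∘ₗ LinearMap.mul Ω (Ω ⊗[k] F) r ∘ₗ
        (B.symm : (Fin 3 → Ω) →ₗ[Ω] (Ω ⊗[k] F)) := fun r => by
    apply LinearMap.ext
    intro x
    obtain ⟨y, rfl⟩ := B.surjective x
    change Psi φ g r *ᵥ (B y) = B (r * B.symm (B y))
    rw [LinearEquiv.symm_apply_apply, hB, hB, map_mul, Matrix.mulVec_mulVec]
  have hnorm : ∀ r : Ω ⊗[k] F, Algebra.norm Ω r = (Psi φ g r).det := fun r => by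
    rw [← LinearMap.det_toLin', hconj, LinearMap.det_conj, Algebra.norm_apply]
    rfl
  have htrace : ∀ r : Ω ⊗[k] F, Algebra.trace Ω (Ω ⊗[k] F) r = (Psi φ g r).trace := fun r => by
    rw [← Matrix.trace_toLin'_eq, hconj, ← LinearMap.comp_assoc, ← LinearEquiv.conj_apply,
      LinearMap.trace_conj', Algebra.trace_apply]
    rfl
  obtain ⟨e, he⟩ := hsurj (-(g v *ᵥ w))
  have hw0 : w ≠ 0 := by
    intro h0
    apply hw
    rw [cyc, h0]
    apply Matrix.det_eq_zero_of_row_eq_zero 0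
    intro j
    rfl
  have hdet : (Psi φ g e + g v).det = 0 := by
    rw [← Matrix.exists_mulVec_eq_zero_iff]
    refine ⟨w, hw0, ?_⟩
    rw [Matrix.add_mulVec, ← hβ, he, neg_add_cancel]
  refine ⟨e, ?_⟩
  rw [mat_det_add] at hdet
  have t1 : ∀ r : Ω ⊗[k] F, (Psi φ g r * g v).trace = 0 := fun r => by
    induction r using TensorProduct.induction_on with
    | zero => rw [map_zero, zero_mul, Matrix.trace_zero]
    | tmul c x =>
      rw [Psi_tmul, smul_mul_assoc, Matrix.trace_smul, ← map_mul, hT, H.T_mul_pr hv.sy, hv.pr0,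
        mul_zero, map_zero, map_zero, map_zero, smul_zero]
    | add x y hx hy => rw [map_add, add_mul, Matrix.trace_add, hx, hy, add_zero]
  have t2 : ∀ r : Ω ⊗[k] F, (Psi φ g r * g (C.adj v)).trace =
      Algebra.trace Ω (Ω ⊗[k] F) ((1 ⊗ₜ pr C φ (C.adj v)) * r) := fun r => by
    induction r using TensorProduct.induction_on with
    | zero => rw [map_zero, zero_mul, Matrix.trace_zero, mul_zero, map_zero]
    | tmul c x =>
      rw [Psi_tmul, smul_mul_assoc, Matrix.trace_smul, ← map_mul, hT,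
        H.T_mul_pr (H.adj_sy hv.sy), Algebra.TensorProduct.tmul_mul_tmul, one_mul, htrace,
        Psi_tmul, Matrix.trace_smul, hT, H.T_φ, mul_comm x]
    | add x y hx hy => rw [map_add, add_mul, Matrix.trace_add, hx, hy, mul_add, map_add]
  have t3 : (Psi φ g e).adjugate = Psi φ g (e * e - (Psi φ g e).trace • e +
      (Psi φ g e).adjugate.trace • 1) := by
    conv_lhs => rw [mat_cayley]
    rw [map_add, map_sub, map_mul, map_smul, map_smul, map_one]
  rw [t3, t1, add_zero, hA, t2, hN, ← hnorm] at hdet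
  exact hdet

omit H

/-- The Skolem surface at infinity has a point over any splitting field. -/
theorem Dat.exists_point_inf (M : Dat C φ) (t : F) {Ω : Type} [Field Ω] [Infinite Ω]
    [Algebra k Ω] [Algebra K Ω] [IsScalarTower k K Ω]
    (g : D →ₐ[K] Matrix (Fin 3) (Fin 3) Ω) : ∃ f : Ω ⊗[k] F,
      Algebra.norm Ω f + Algebra.trace Ω (Ω ⊗[k] F) ((1 ⊗ₜ M.A (t, 0)) * f) +
        algebraMap k Ω (M.G (t, 0)) = 0 := by
  obtain ⟨f, hf⟩ := M.H.exists_point (M.L_inV (t, 0)) g
  refine ⟨f, ?_⟩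
  have h1 := M.A_eq (t, 0)
  have h2 := M.G_eq (t, 0)
  rw [IsScalarTower.algebraMap_apply k K Ω, h1, h2]
  simpa using hf

end Vale.Agent.P011.H775
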