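import Vale.Agent.P011.H775.Cub

/-!
# Existence of the cubic norm structure; involutions; conjugate elements
-/

open Module Polynomial Matrix

namespace Vale.Agent.P011.H775

variable {K D : Type} [Field K]

section ex

variable [Ring D] [Algebra K D] [FiniteDimensional K D] [Algebra.IsCentral K D] [IsSimpleRing D]

/-- The coefficients of the reduced characteristic polynomial. -/
theorem exists_coeff {Ω : Type} [Field Ω] [Algebra K Ω] (hD : finrank K D = 3 ^ 2)
    (f : D →ₐ[K] Matrix (Fin 3) (Fin 3) Ω) (x : D) :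
    ∃ t s n : K, (f x).trace = algebraMap K Ω t ∧ (f x).adjugate.trace = algebraMap K Ω s ∧
      (f x).det = algebraMap K Ω n := by
  obtain ⟨P, -, -, hP⟩ := H268.exists_charpoly (by norm_num) hD f x
  rw [mat_charpoly] at hP
  have h0 := congrArg (fun Q => Polynomial.coeff Q 0) hP
  have h1 := congrArg (fun Q => Polynomial.coeff Q 1) hP
  have h2 := congrArg (fun Q => Polynomial.coeff Q 2) hP
  simp only [coeff_sub, coeff_add, coeff_X_pow, coeff_C_mul, coeff_X, coeff_C,
    Polynomial.coeff_map] at h0 h1 h2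
  norm_num at h0 h1 h2
  refine ⟨-P.coeff 2, P.coeff 1, -P.coeff 0, ?_, h1, ?_⟩
  · rw [map_neg, ← h2, neg_neg]
  · rw [map_neg, ← h0, neg_neg]

theorem exists_cub (hD : finrank K D = 3 ^ 2) : Nonempty (Cub K D) := by
  obtain ⟨f⟩ := H268.exists_split_sepClosed (K := K) (A := D) (E := SeparableClosure K) hD
  set Ω := SeparableClosure K
  have hf : Function.Injective f := f.toRingHom.injective
  have hi : Function.Injective (algebraMap K Ω) := (algebraMap K Ω).injective
  choose t s n ht hs hn using exists_coeff hD f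
  have hadd : ∀ x y, t (x + y) = t x + t y := fun x y => hi (by
    rw [← ht, map_add, Matrix.trace_add, ht, ht, map_add])
  have hsm : ∀ (c : K) x, t (c • x) = c • t x := fun c x => hi (by
    rw [← ht, map_smul, ← algebraMap_smul Ω c, Matrix.trace_smul, ht, smul_eq_mul, smul_eq_mul,
      map_mul])
  refine ⟨{ T := { toFun := t, map_add' := hadd, map_smul' := hsm }, N := n,
            adj := fun x => x * x - t x • x + s x • (1 : D),
            spl := ⟨Ω, inferInstance, inferInstance, f, hf, fun x => ht x, hn, fun x => ?_⟩ }⟩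
  rw [mat_cayley, map_add, map_sub, map_mul, map_smul, map_smul, map_one, ht, hs,
    algebraMap_smul, algebraMap_smul]

end ex

namespace Cub

section star

variable [StarRing K] [Ring D] [StarRing D] [Algebra K D] [FiniteDimensional K D]
  [Algebra.IsCentral K D] [IsSimpleRing D] (C : Cub K D)

/-- Trace, second coefficient and norm of `star x`. -/
theorem star_coeff (hD : finrank K D = 3 ^ 2)
    (hss : ∀ c : K, star (algebraMap K D c) = algebraMap K D (star c)) (x : D) :
    C.T (star x) = star (C.T x) ∧ C.S (star x) = star (C.S x) ∧ C.N (star x) = star (C.N x) := by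
  obtain ⟨Ω, _, _, f, hf, hT, hN, hA⟩ := C.spl
  have hi : Function.Injective (algebraMap K Ω) := (algebraMap K Ω).injective
  have hS : ∀ x, (f x).adjugate.trace = algebraMap K Ω (C.S x) := fun x => by
    rw [hA, hT]
    rfl
  obtain ⟨P, -, -, hP⟩ := H268.exists_charpoly (by norm_num) hD f x
  have hQ := H268.charpoly_compare' (by norm_num) hD f (H268.starSplit hss f) x hP
  have hQ2 : (f (star x)).charpoly = P.map ((algebraMap K Ω).comp (starRingEnd K)) := by
    rw [← Matrix.charpoly_transpose]
    exact hQ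
  rw [mat_charpoly, hT, hS, hN] at hP hQ2
  have h0 := congrArg (fun Q => Polynomial.coeff Q 0) hP
  have h1 := congrArg (fun Q => Polynomial.coeff Q 1) hP
  have h2 := congrArg (fun Q => Polynomial.coeff Q 2) hP
  have g0 := congrArg (fun Q => Polynomial.coeff Q 0) hQ2
  have g1 := congrArg (fun Q => Polynomial.coeff Q 1) hQ2
  have g2 := congrArg (fun Q => Polynomial.coeff Q 2) hQ2
  simp only [coeff_sub, coeff_add, coeff_X_pow, coeff_C_mul, coeff_X, coeff_C,
    Polynomial.coeff_map] at h0 h1 h2 g0 g1 g2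
  norm_num at h0 h1 h2 g0 g1 g2
  have h1' : C.S x = P.coeff 1 := by first | exact h1 | exact hi h1
  have g1' : C.S (star x) = star (P.coeff 1) := by first | exact g1 | exact hi g1
  rw [← map_neg] at h0 h2 g0 g2
  have h0' := hi h0
  have h2' := hi h2
  have g0' := hi g0
  have g2' := hi g2
  refine ⟨?_, ?_, ?_⟩
  · rw [← h2'] at g2'
    simpa [starRingEnd_apply] using g2'
  · rw [g1', ← h1']
  · rw [← h0'] at g0'
    simpa [starRingEnd_apply] using g0'

end star

section div

variable [DivisionRing D] [Algebra K D] (C : Cub K D)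

theorem N_ne_zero {x : D} (hx : x ≠ 0) : C.N x ≠ 0 := by
  intro h
  have h1 := C.N_mul x x⁻¹
  rw [mul_inv_cancel₀ hx, C.N_one, h, zero_mul] at h1
  exact one_ne_zero h1

theorem N_eq_zero {x : D} : C.N x = 0 ↔ x = 0 :=
  ⟨fun h => by
    by_contra hx
    exact C.N_ne_zero hx h, fun h => by rw [h, C.N_zero]⟩

theorem inv_eq {x : D} (hx : x ≠ 0) : x⁻¹ = (C.N x)⁻¹ • C.adj x := by
  have h := C.N_ne_zero hx
  apply inv_eq_of_mul_eq_one_right
  rw [mul_smul_comm, C.mul_adj, smul_smul, inv_mul_cancel₀ h, one_smul]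

theorem adj_eq_inv {x : D} (hx : x ≠ 0) : C.adj x = C.N x • x⁻¹ := by
  rw [C.inv_eq hx, smul_smul, mul_inv_cancel₀ (C.N_ne_zero hx), one_smul]

theorem adj_ne_zero {x : D} (hx : x ≠ 0) : C.adj x ≠ 0 := by
  rw [C.adj_eq_inv hx]
  exact smul_ne_zero (C.N_ne_zero hx) (inv_ne_zero hx)

theorem N_adj (x : D) : C.N (C.adj x) = C.N x ^ 2 := by
  by_cases hx : x = 0
  · rw [hx, C.adj_zero, C.N_zero]
    ring
  · have h1 := C.N_mul x (C.adj x)
    rw [C.mul_adj, C.N_smul, C.N_one] at h1
    have := C.N_ne_zero hx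
    apply mul_left_cancel₀ this
    rw [← h1]
    ring

theorem N_inv {x : D} : C.N x⁻¹ = (C.N x)⁻¹ := by
  by_cases hx : x = 0
  · rw [hx, _root_.inv_zero, C.N_zero, _root_.inv_zero]
  · have h1 := C.N_mul x x⁻¹
    rw [mul_inv_cancel₀ hx, C.N_one] at h1
    exact (inv_eq_of_mul_eq_one_right h1.symm).symm

theorem T_conj {g : D} (hg : g ≠ 0) (x : D) : C.T (g * x * g⁻¹) = C.T x := by
  rw [C.T_comm, ← mul_assoc, inv_mul_cancel₀ hg, one_mul]

theorem N_conj {g : D} (hg : g ≠ 0) (x : D) : C.N (g * x * g⁻¹) = C.N x := by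
  rw [C.N_mul, C.N_mul, C.N_inv]
  have := C.N_ne_zero hg
  field_simp

theorem adj_conj {g : D} (hg : g ≠ 0) (x : D) : C.adj (g * x * g⁻¹) = g * C.adj x * g⁻¹ := by
  rw [C.adj_mul_distrib, C.adj_mul_distrib, C.adj_eq_inv (inv_ne_zero hg), C.adj_eq_inv hg,
    inv_inv, C.N_inv]
  have := C.N_ne_zero hg
  rw [smul_mul_assoc, mul_smul_comm, mul_smul_comm, smul_smul, inv_mul_cancel₀ this, one_smul,
    mul_assoc]

/-- Two noncentral elements with the same reduced characteristic polynomial are conjugate. -/
theorem exists_conj [Algebra.IsCentral K D] {x y : D} (hx : x ∉ Set.range (algebraMap K D))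
    (hy : y ∉ Set.range (algebraMap K D)) (hT : C.T x = C.T y) (hS : C.S x = C.S y)
    (hN : C.N x = C.N y) : ∃ g : D, g ≠ 0 ∧ y * g = g * x := by
  set t := C.T x
  set s := C.S x
  set n := C.N x
  have px : x * x * x - t • (x * x) + s • x - n • (1 : D) = 0 := C.cayley x
  have py : y * y * y - t • (y * y) + s • y - n • (1 : D) = 0 := by
    have := C.cayley y
    rwa [← hT, ← hS, ← hN] at this
  have hcen : ∀ z : D, (∀ h, h * z = z * h) → z ∈ Set.range (algebraMap K D) := by
    intro z hz
    have h1 : z ∈ Subalgebra.center K D := Subalgebra.mem_center_iff.mpr hz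
    rw [Algebra.IsCentral.center_eq_bot, Algebra.mem_bot] at h1
    exact h1
  by_contra hcon
  push Not at hcon
  -- the divided difference vanishes identically
  have key : ∀ h : D, y * y * h + y * h * x + h * (x * x) - t • (y * h + h * x) + s • h = 0 := by
    intro h
    by_contra hne
    refine hcon _ hne ?_
    have e1 : y * (y * y * h + y * h * x + h * (x * x) - t • (y * h + h * x) + s • h) -
        (y * y * h + y * h * x + h * (x * x) - t • (y * h + h * x) + s • h) * x =
        (y * y * y - t • (y * y) + s • y - n • (1 : D)) * h -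
        h * (x * x * x - t • (x * x) + s • x - n • (1 : D)) := by
      simp only [mul_add, mul_sub, add_mul, sub_mul, mul_smul_comm, smul_mul_assoc, smul_add,
        one_mul, mul_one, mul_assoc]
      abel
    rw [px, py, zero_mul, mul_zero, sub_zero] at e1
    exact sub_eq_zero.mp e1
  obtain ⟨z, hz⟩ : ∃ z : D, z * x - x * z ≠ 0 := by
    by_contra hall
    push Not at hall
    exact hx (hcen x fun h => sub_eq_zero.mp (hall h))
  set a := z * x - x * z with ha
  set b := z * (x * x) - x * x * z with hb
  have k2 : ∀ h : D, y * h * a - t • (h * a) + h * b = 0 := by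
    intro h
    have e1 := key (h * z)
    have e2 : (y * y * h + y * h * x + h * (x * x) - t • (y * h + h * x) + s • h) * z = 0 := by
      rw [key h, zero_mul]
    have e3 : y * h * a - t • (h * a) + h * b =
        (y * y * (h * z) + y * (h * z) * x + h * z * (x * x) - t • (y * (h * z) + h * z * x) +
          s • (h * z)) -
        (y * y * h + y * h * x + h * (x * x) - t • (y * h + h * x) + s • h) * z := by
      simp only [ha, hb, mul_sub, add_mul, sub_mul, smul_mul_assoc, smul_add, smul_sub,
        mul_assoc]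
      abel
    rw [e3, e1, e2, sub_zero]
  have k1 := k2 1
  rw [mul_one, one_mul, one_mul] at k1
  have k3 : y - t • (1 : D) = -(b * a⁻¹) := by
    have e : (y - t • (1 : D)) * a = -b := by
      rw [sub_mul, smul_mul_assoc, one_mul]
      exact eq_neg_of_add_eq_zero_left k1
    calc y - t • (1 : D) = (y - t • (1 : D)) * a * a⁻¹ := by
          rw [mul_assoc, mul_inv_cancel₀ hz, mul_one]
      _ = -(b * a⁻¹) := by rw [e, neg_mul]
  have k4 : ∀ h : D, h * (b * a⁻¹) = b * a⁻¹ * h := by
    intro h
    have e := k2 h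
    have e2 : (y - t • (1 : D)) * h * a + h * b = 0 := by
      rw [sub_mul, sub_mul, smul_mul_assoc, smul_mul_assoc, one_mul]
      exact e
    rw [k3] at e2
    have e3 : h * b = b * a⁻¹ * h * a := by
      rw [neg_mul, neg_mul] at e2
      exact (neg_add_eq_zero.mp e2).symm
    rw [← mul_assoc, e3, mul_assoc _ a, mul_inv_cancel₀ hz, mul_one]
  obtain ⟨c, hc⟩ := hcen _ k4
  apply hy
  refine ⟨t - c, ?_⟩
  rw [map_sub, hc, sub_eq_iff_eq_add.mp k3, Algebra.algebraMap_eq_smul_one]
  abel

end div

end Cub

end Vale.Agent.P011.H775
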