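import Vale.Agent.P011.H775.M3b
import Vale.Agent.P011.H948.EtaB

/-!
# Construction of the data of a chart
-/

set_option linter.unusedSectionVars false

open Module Polynomial Matrix

namespace Vale.Agent.P011.H775

variable {k K F D : Type} [Field k] [Field K] [Field F] [Algebra k K] [Algebra k F]

section ring

variable [Ring D] [Algebra k D] [Algebra K D] {C : Cub K D} {φ : F →ₐ[k] D}

/-- A generator has distinct conjugates. -/
theorem DSpl.exists_gen [FiniteDimensional k F] [Algebra.IsSeparable k F] {Ω : Type} [Field Ω]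
    [Algebra K Ω] (S : DSpl C φ Ω) : ∃ s : F, Function.Injective fun i => S.σ i s := by
  set pb := Field.powerBasisOfFiniteOfSeparable k F
  let : Algebra k Ω := ((algebraMap K Ω).comp (algebraMap k K)).toAlgebra
  let τ : Fin 3 → (F →ₐ[k] Ω) := fun i => { S.σ i with commutes' := fun c => S.base i c }
  refine ⟨pb.gen, fun i j hij => ?_⟩
  apply S.σinj
  have h : τ i = τ j := pb.algHom_ext hij
  ext x
  exact DFunLike.congr_fun h x

/-- Two elements of trace zero with nonzero twist constant. -/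
theorem DSpl.exists_ab [FiniteDimensional k F] [Algebra.IsSeparable k F] {Ω : Type} [Field Ω]
    [Algebra K Ω] (S : DSpl C φ Ω) (hF : finrank k F = 3) (h3 : (3 : k) ≠ 0) :
    ∃ a b : F, Algebra.trace k F a = 0 ∧ Algebra.trace k F b = 0 ∧ D0 k a b ≠ 0 := by
  obtain ⟨s, hs⟩ := S.exists_gen
  have htr : ∀ x : F, Algebra.trace k F (x - algebraMap k F (Algebra.trace k F x / 3)) = 0 := by
    intro x
    rw [map_sub, Algebra.trace_algebraMap, hF, nsmul_eq_mul]
    push_cast
    field_simp
    ring
  set a := s - algebraMap k F (Algebra.trace k F s / 3) with ha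
  set b := a ^ 2 - algebraMap k F (Algebra.trace k F (a ^ 2) / 3) with hb
  have hta : Algebra.trace k F a = 0 := htr s
  have htb : Algebra.trace k F b = 0 := htr (a ^ 2)
  refine ⟨a, b, hta, htb, fun h0 => ?_⟩
  have h3' : (3 : Ω) ≠ 0 := by
    have h := (_root_.map_ne_zero ((algebraMap K Ω).comp (algebraMap k K))).2 h3
    rwa [map_ofNat] at h
  have hinj : Function.Injective fun i => S.σ i a := by
    intro i j hij
    apply hs
    have h := hij
    simp only [ha, map_sub, S.base] at h
    exact sub_left_inj.1 h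
  have hsq := S.tc_sq h3 hta htb
  rw [h0, map_zero, map_zero] at hsq
  have htc : S.tc a b = 0 := pow_eq_zero_iff (two_ne_zero) |>.1 hsq
  have ha' := S.trace_eq a
  rw [hta, map_zero, map_zero] at ha'
  have ha2 : S.σ 2 a = -(S.σ 0 a + S.σ 1 a) := by linear_combination -ha'
  have hm : ∀ i, S.σ i b = S.σ i a ^ 2 -
      (S.σ 0 a ^ 2 + S.σ 1 a ^ 2 + S.σ 2 a ^ 2) / 3 := fun i => by
    rw [hb, map_sub, map_pow, S.base, map_div₀, map_div₀, S.trace_eq, map_ofNat, map_ofNat,
      map_pow, map_pow, map_pow]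
  have h1 : 3 * S.tc a b =
      -((S.σ 0 a - S.σ 1 a) * (S.σ 0 a - S.σ 2 a) * (S.σ 1 a - S.σ 2 a)) := by
    rw [DSpl.tc, hm, hm, ha2]
    field_simp
    ring
  rw [htc, mul_zero] at h1
  have h2 := neg_eq_zero.1 h1.symm
  rcases mul_eq_zero.1 h2 with h4 | h4
  · rcases mul_eq_zero.1 h4 with h5 | h5
    · exact absurd (hinj (sub_eq_zero.1 h5)) (by decide)
    · exact absurd (hinj (sub_eq_zero.1 h5)) (by decide)
  · exact absurd (hinj (sub_eq_zero.1 h4)) (by decide)

end ring

section star

variable [StarRing K] [DivisionRing D] [StarRing D] [Algebra k D] [Algebra K D]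
  [FiniteDimensional K D] [Algebra.IsCentral K D] [IsScalarTower k K D]
  [FiniteDimensional k F] [Algebra.IsSeparable k F]

variable {C : Cub K D} {φ : F →ₐ[k] D} {p : D}

/-- The data of a chart exist. -/
theorem Cfd.exists_dat (H : Cfd C φ p) {δ : K} (hδ : star δ = -δ) {d : k}
    (hd : δ ^ 2 = algebraMap k K d) (d0 : d ≠ 0) (h3 : (3 : k) ≠ 0) {g y : D}
    (hg : star g = g) (hy : star y = y) (horth : ∀ x, C.T (p * g * φ x) = 0)
    (hne : C.T (C.adj (p * g)) ≠ 0) :
    ∃ M : Dat C φ, M.p = p ∧ M.g = g ∧ M.y = y ∧ M.δ = δ ∧ M.d = d := by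
  obtain ⟨Ω, _, _, ⟨S⟩⟩ := H.exists_dspl
  obtain ⟨a, b, ha, hb, hab⟩ := S.exists_ab H.hF h3
  have hsyp : Sy p p := by
    change p * star p = p * p
    rw [H.hp]
  obtain ⟨n, hn⟩ := H.exists_N hsyp
  have hsy : Sy p (p * g) := by
    change p * star (p * g) = p * g * p
    rw [star_mul, hg, H.hp, mul_assoc]
  have hpr : pr C φ (p * g) = 0 := by
    by_contra h0
    have hnd := traceForm_nondegenerate k F
    have h1 : ∀ f : F, Algebra.traceForm k F (pr C φ (p * g)) f = 0 := fun f => by
      rw [Algebra.traceForm_apply, mul_comm]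
      apply (algebraMap k K).injective
      rw [← H.T_mul_pr hsy, C.T_comm, horth, map_zero]
    exact h0 (hnd.1 _ h1)
  refine ⟨{ p := p, g := g, y := y, δ := δ, d := d, n := n, a := a, b := b, H := H, hδ := hδ,
            hd := hd, d0 := d0, hn := hn.symm, ha := ha, hb := hb, D00 := hab, h3 := h3,
            hg := hg, hy := hy, prh := hpr, prh0 := fun h0 => hne ?_ }, rfl, rfl, rfl, rfl, rfl⟩
  have h1 := H.T_mul_pr (H.adj_sy hsy) 1
  rw [map_one, one_mul, one_mul, h0, map_zero, map_zero] at h1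
  exact h1

end star

end Vale.Agent.P011.H775
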