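import Vale.Agent.P011.H775.M3
import Mathlib.LinearAlgebra.Multilinear.Basic
import Mathlib.Algebra.Polynomial.BigOperators

/-!
# The normal form: behaviour at infinity and along conics
-/

set_option linter.unusedSectionVars false

open Module Polynomial Matrix

namespace Vale.Agent.P011.H775

/-- A cubic form is a polynomial of degree at most six along a parametrised conic. -/
theorem exists_poly {k V : Type} [Field k] [AddCommGroup V] [Module k V]
    (m : MultilinearMap k (fun _ : Fin 3 => V) k) (a : Fin 3 → V) :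
    ∃ P : k[X], P.natDegree ≤ 6 ∧ P.coeff 6 = m (fun _ => a 2) ∧
      ∀ s : k, m (fun _ => ∑ j : Fin 3, s ^ (j : ℕ) • a j) = P.eval s := by
  classical
  refine ⟨∑ r : Fin 3 → Fin 3, Polynomial.C (m fun i => a (r i)) *
    X ^ (∑ i, (r i : ℕ)), ?_, ?_, fun s => ?_⟩
  · refine Polynomial.natDegree_sum_le_of_forall_le _ _ fun r _ => ?_
    refine (Polynomial.natDegree_C_mul_X_pow_le _ _).trans ?_
    rw [Fin.sum_univ_three]
    have h0 := (r 0).2
    have h1 := (r 1).2
    have h2 := (r 2).2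
    omega
  · rw [Polynomial.finsetSum_coeff, Finset.sum_eq_single fun _ => 2]
    · rw [Fin.sum_univ_three, Polynomial.coeff_C_mul_X_pow]
      exact if_pos rfl
    · intro r _ hr
      rw [Polynomial.coeff_C_mul_X_pow, if_neg]
      intro h6
      apply hr
      rw [Fin.sum_univ_three] at h6
      have h0 := (r 0).2
      have h1 := (r 1).2
      have h2 := (r 2).2
      funext i
      apply Fin.ext
      fin_cases i
      · change (r 0 : ℕ) = 2
        omega
      · change (r 1 : ℕ) = 2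
        omega
      · change (r 2 : ℕ) = 2
        omega
    · intro h
      exact absurd (Finset.mem_univ _) h
  · rw [MultilinearMap.map_sum, Polynomial.eval_finsetSum]
    refine Finset.sum_congr rfl fun r _ => ?_
    rw [MultilinearMap.map_smul_univ m (fun i => s ^ (r i : ℕ)) fun i => a (r i),
      Finset.prod_pow_eq_pow_sum, Polynomial.eval_mul, Polynomial.eval_C, Polynomial.eval_pow,
      Polynomial.eval_X, smul_eq_mul, mul_comm]

variable {k K F D : Type} [Field k] [Field K] [Field F] [Algebra k K] [Algebra k F]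

variable [StarRing K] [DivisionRing D] [StarRing D] [Algebra k D] [Algebra K D]
  [FiniteDimensional K D] [Algebra.IsCentral K D] [IsScalarTower k K D]
  [FiniteDimensional k F] [Algebra.IsSeparable k F]

section H

variable {C : Cub K D} {φ : F →ₐ[k] D} {p : D} (H : Cfd C φ p)

include H

theorem Cfd.pr_φ (w : F) : pr C φ (φ w) = w := by
  obtain ⟨Ω, _, _, ⟨S⟩⟩ := H.exists_dspl
  apply (S.σ 0).injective
  rw [S.pr_eq H (H.hφ w), S.dg, Matrix.diagonal_apply_eq]

theorem Cfd.σ_sh {Ω : Type} [Field Ω] [Algebra K Ω] (S : DSpl C φ Ω) (w : F) (i : Fin 3) :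
    S.σ i (sh k w) = S.σ i w ^ 2 - (S.σ 0 w + S.σ 1 w + S.σ 2 w) * S.σ i w +
      (S.σ 1 w * S.σ 2 w + S.σ 2 w * S.σ 0 w + S.σ 0 w * S.σ 1 w) := by
  rw [sh, map_add, map_sub, map_mul, map_pow, S.base, S.base, S.trace_eq, S.e2_eq H.h2]

theorem Cfd.mul_sh (w : F) : w * sh k w = algebraMap k F (Algebra.norm k w) := by
  obtain ⟨Ω, _, _, ⟨S⟩⟩ := H.exists_dspl
  apply (S.σ 0).injective
  rw [map_mul, H.σ_sh S, S.base, S.norm_eq]
  ring

theorem Cfd.sh_ne_zero {w : F} (hw : w ≠ 0) : sh k w ≠ 0 := by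
  intro h
  have h1 := H.mul_sh w
  rw [h, mul_zero] at h1
  have h2 : Algebra.norm k w ≠ 0 := Algebra.norm_ne_zero_iff.2 hw
  exact (_root_.map_ne_zero (algebraMap k F)).2 h2 h1.symm

theorem Cfd.e2_sh (w : F) : e2 k (sh k w) = Algebra.norm k w * Algebra.trace k F w := by
  obtain ⟨Ω, _, _, ⟨S⟩⟩ := H.exists_dspl
  apply (algebraMap k K).injective
  apply (algebraMap K Ω).injective
  rw [S.e2_eq H.h2, H.σ_sh S, H.σ_sh S, H.σ_sh S, map_mul, map_mul, S.norm_eq, S.trace_eq]
  ring

theorem Cfd.N_of_T {x : D} (h3 : (3 : k) ≠ 0) (hx : C.T x = 0) :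
    C.N x = (3 : K)⁻¹ * C.T (x * x * x) := by
  have h := congrArg C.T (C.cayley x)
  rw [hx, zero_smul, sub_zero, map_zero, map_sub, map_add, map_smul, map_smul, hx, C.T_one,
    smul_zero, add_zero, smul_eq_mul] at h
  have h3' : (3 : K) ≠ 0 := by
    have h := (_root_.map_ne_zero (algebraMap k K)).2 h3
    rwa [map_ofNat] at h
  field_simp
  linear_combination -h

end H

namespace Dat

variable {C : Cub K D} {φ : F →ₐ[k] D} (M : Dat C φ)

theorem A_inf (t : F) : M.A (t, 0) = M.al * t ^ 2 := by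
  rw [A]
  simp

theorem L_inf (t : F) : M.L (t, 0) = act C φ t M.h' := by
  rw [L_apply, zero_smul, par, ← actL_apply C φ M.h 0, map_zero, zero_add]
  rfl

theorem L_inf_ne {t : F} (ht : t ≠ 0) : M.L (t, 0) ≠ 0 := by
  intro h0
  have h := M.A_eq (t, 0)
  rw [M.A_inf, h0, C.adj_zero, map_zero, zero_add] at h
  simp only [ne_eq, OfNat.ofNat_ne_zero, not_false_eq_true, zero_pow, mul_zero, map_zero,
    zero_mul] at h
  exact mul_ne_zero M.al_ne_zero (pow_ne_zero 2 ht) h

theorem G_inf (t : F) : M.G (t, 0) = Algebra.norm k t * rk k (C.N M.h') := by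
  apply (algebraMap k K).injective
  rw [M.G_eq, M.L_inf, M.H.N_act t M.h'_inV, map_mul (algebraMap k K) (Algebra.norm k t),
    M.H.rk_eq M.star_N_h']
  simp

/-- A nonzero point of the parameter quadric gives `x₀ ≠ 0`. -/
theorem x₀_ne_zero {z : F × k} (hz : z ≠ 0) {e : F}
    (hC : C.Cf (algebraMap k K M.d) M.g M.y (algebraMap k K z.2) (M.xi z e) = 0) : z.2 ≠ 0 := by
  intro h0
  have hz1 : z.1 ≠ 0 := fun h1 => hz (Prod.ext h1 h0)
  have hz' : z = (z.1, 0) := Prod.ext rfl h0
  refine C.x₀_ne_zero hC (Or.inr ?_) (by rw [h0, map_zero])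
  intro hx
  rw [xi, h0, mul_zero, map_zero, zero_smul, sub_zero] at hx
  have h1 : φ e + M.L z = 0 := by
    rcases mul_eq_zero.1 hx with h | h
    · exact absurd h (inv_ne_zero M.H.hp0)
    · exact h
  have h2 := congrArg (pr C φ) h1
  rw [map_add, M.H.pr_φ, (M.L_inV z).pr0, add_zero, map_zero] at h2
  rw [h2, map_zero, zero_add, hz'] at h1
  exact M.L_inf_ne hz1 h1

/-- The point at infinity. -/
theorem Q_inf {t : F} (ht : Algebra.trace k F t = 0) : M.Q (sh k t, 0) = 0 := by
  rw [Q_apply, M.H.e2_sh, ht, mul_zero, mul_zero, zero_mul, add_zero]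

theorem norm_al : Algebra.norm k M.al =
    -(M.d * D0 k M.a M.b) ^ 3 * Algebra.norm k (pr C φ (C.adj M.h)) := by
  rw [al, map_mul, ← map_neg, Algebra.norm_algebraMap, M.H.hF, neg_pow]
  ring

theorem N_h'_sq : rk k (C.N M.h') ^ 2 = (M.d * D0 k M.a M.b) ^ 3 *
    (rk k (C.N M.h) ^ 2 + 4 * Algebra.norm k (pr C φ (C.adj M.h))) := by
  apply (algebraMap k K).injective
  have h := M.H.N_tw M.hδ M.hd M.ha M.hb M.h3 M.h_inV
  rw [map_pow, M.H.rk_eq M.star_N_h', map_mul, map_add, map_pow (algebraMap k K) (rk k (C.N M.h)),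
    M.H.rk_eq M.star_N_h, map_mul, map_ofNat]
  exact h

/-- The discriminant at infinity. -/
theorem H_inf (t : F) : M.G (t, 0) ^ 2 + 4 * Algebra.norm k (M.A (t, 0)) =
    (M.d * D0 k M.a M.b) ^ 3 * (rk k (C.N M.h) * Algebra.norm k t) ^ 2 := by
  rw [M.G_inf, M.A_inf, map_mul, map_pow, M.norm_al, mul_pow, M.N_h'_sq]
  ring

/-- The cubic form `G` as a multilinear map. -/
noncomputable def Gm : MultilinearMap k (fun _ : Fin 3 => F × k) k :=
  ((rk k).comp (LinearMap.mulLeft k (3 : K)⁻¹ ∘ₗ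
      (C.T.restrictScalars k))).compMultilinearMap
    ((MultilinearMap.mkPiAlgebraFin k 3 D).compLinearMap fun _ => M.L) +
  (M.n * M.d) • (MultilinearMap.mkPiAlgebra k (Fin 3) k).compLinearMap
    ![LinearMap.snd k F k, LinearMap.snd k F k,
      (rk k).comp ((C.T.restrictScalars k).comp ((LinearMap.mulLeft k M.Gp).comp M.L))] +
  (M.n * rk k M.κ₀) • (MultilinearMap.mkPiAlgebra k (Fin 3) k).compLinearMap
    fun _ => LinearMap.snd k F k

theorem G_eq_Gm (z : F × k) : M.G z = M.Gm fun _ => z := by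
  have hT : C.T (M.L z) = 0 := by
    have h := M.H.T_mul_pr (M.L_inV z).sy 1
    rw [map_one, one_mul, one_mul, (M.L_inV z).pr0, map_zero, map_zero] at h
    exact h
  have e2 : rk k (algebraMap k K (M.n * M.d * z.2 ^ 2) * C.T (M.Gp * M.L z)) =
      M.n * M.d * z.2 ^ 2 * rk k (C.T (M.Gp * M.L z)) := by
    rw [← Algebra.smul_def, map_smul, smul_eq_mul]
  have e3 : rk k (algebraMap k K (M.n * z.2 ^ 3) * M.κ₀) = M.n * z.2 ^ 3 * rk k M.κ₀ := by
    rw [← Algebra.smul_def, map_smul, smul_eq_mul]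
  rw [G, map_add, map_add, M.H.N_of_T M.h3 hT, e2, e3, Gm]
  simp only [_root_.add_apply, _root_.smul_apply,
    LinearMap.compMultilinearMap_apply, MultilinearMap.compLinearMap_apply,
    MultilinearMap.mkPiAlgebraFin_apply, MultilinearMap.mkPiAlgebra_apply, Fin.prod_univ_three,
    List.ofFn_succ, List.ofFn_zero, List.prod_cons, List.prod_nil, mul_one,
    LinearMap.comp_apply, LinearMap.mulLeft_apply, LinearMap.restrictScalars_apply,
    LinearMap.snd_apply, smul_eq_mul, mul_assoc]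
  simp
  ring

/-- Along a parametrised conic `G` is a polynomial of degree at most six. -/
theorem exists_G_poly (a : Fin 3 → F × k) : ∃ P : k[X], P.natDegree ≤ 6 ∧
    P.coeff 6 = M.G (a 2) ∧ ∀ s : k, M.G (∑ j : Fin 3, s ^ (j : ℕ) • a j) = P.eval s := by
  obtain ⟨P, hP, h6, h⟩ := exists_poly M.Gm a
  exact ⟨P, hP, by rw [h6, M.G_eq_Gm], fun s => by rw [M.G_eq_Gm, h]⟩

end Dat

end Vale.Agent.P011.H775
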