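import Vale.Agent.P011.H775.Final
import Vale.Agent.P011.H321.PartIof

/-!
# The Skolem step in the form of the assembly of Part I
-/

set_option linter.unusedSectionVars false

open Module NumberField IsDedekindDomain

namespace Vale.Agent.P011.H775

open Vale.Agent.P011.Arith Vale.Agent.P011.Even Vale.Agent.P011.Two Vale.Agent.P011.One
  Vale.Agent.P011.W Vale.Agent.P011.H211

/-- The local condition at the places where `D` ramifies. -/
def GD {k : Type} [Field k] [NumberField k] (F : Type) [Field F] [NumberField F] [Algebra k F]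
    (v : HeightOneSpectrum (𝓞 k)) (A : F) (G : k) : Prop :=
  LPt v A G ∨ Good F (v.valuation k) (Algebra.norm k A) G

variable {k K D : Type} [Field k] [NumberField k] [Field K] [NumberField K] [StarRing K]
  [DivisionRing D] [StarRing D] [Algebra k K] [Algebra k D] [Algebra K D] [IsScalarTower k K D]
  {d : kˣ} {s : K}

/-- **The Skolem step.** -/
theorem m10 (hS : Setting k K D d s) (hdeg : finrank K D = 3 ^ 2) (C : Cub K D) :
    H321.PartI.M10 C d s {v : HeightOneSpectrum (𝓞 k) | (Sum.inl v : Pl k) ∈ Tdiv k K D}
      (fun F _ _ _ => GD F) := by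
  intro F _ _ _ φ _ _ M _ _ _ z hz h
  exact M.exists_of_crit hS hdeg hz.Q hz.pol hz.A (fun v hv => h v hv)

end Vale.Agent.P011.H775
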