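import Vale.Agent.P011.H775.CubEx

/-!
# The Skolem form

`Qf` and `Cf` are the two forms in `(x₀, ξ)` which describe the linear section `X_x` in a Cayley
chart.  After the congruence `ξ ↦ b' ξ b` they become a quadratic form which vanishes on a three
dimensional space and a cubic form of Skolem type.
-/

namespace Vale.Agent.P011.H775

namespace Cub

variable {K D : Type} [Field K]

section ring

variable [Ring D] [Algebra K D] (C : Cub K D)

/-- The quadratic form of the chart. -/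
def Qf (d : K) (g y : D) (x₀ : K) (ξ : D) : K :=
  C.T (g * C.adj ξ) + d * x₀ * C.T (y * ξ) + d * x₀ ^ 2

/-- The cubic form of the chart. -/
def Cf (d : K) (g y : D) (x₀ : K) (ξ : D) : K :=
  C.N ξ + d * x₀ * C.T (y * C.adj ξ) + d * x₀ ^ 2 * C.T (g * ξ)

theorem T_cong (b b' g x : D) :
    C.T (b' * g * b * C.adj (b' * x * b)) = C.N b * C.N b' * C.T (g * C.adj x) := by
  rw [C.adj_mul_distrib, C.adj_mul_distrib]
  have e1 : b' * g * b * (C.adj b * (C.adj x * C.adj b')) =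
      C.N b • (b' * (g * C.adj x * C.adj b')) := by
    calc b' * g * b * (C.adj b * (C.adj x * C.adj b'))
        = b' * g * (b * C.adj b) * (C.adj x * C.adj b') := by simp only [mul_assoc]
      _ = _ := by
        rw [C.mul_adj, mul_smul_comm, smul_mul_assoc, mul_one]
        simp only [mul_assoc]
  rw [e1, map_smul, C.T_comm, mul_assoc, C.adj_mul, mul_smul_comm, map_smul, mul_one,
    smul_eq_mul, smul_eq_mul, mul_assoc]

theorem N_cong (b b' x : D) : C.N (b' * x * b) = C.N b * C.N b' * C.N x := by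
  rw [C.N_mul, C.N_mul]
  ring

theorem cr_one (x : D) : C.cr x 1 = C.T x • (1 : D) - x := by
  rw [cr, mul_one, one_mul, C.T_one, mul_comm (C.T x), sub_eq_add_neg, sub_eq_add_neg]
  have e : (3 * C.T x - C.T x) • (1 : D) = C.T x • (1 : D) + C.T x • (1 : D) := by
    rw [← add_smul]
    congr 1
    ring
  have e3 : (3 : K) • x = x + x + x := by
    rw [show (3 : K) = 1 + 1 + 1 by norm_num, add_smul, add_smul, one_smul]
  rw [e, e3]
  abel

theorem cr_sub_left (x x' y : D) : C.cr (x - x') y = C.cr x y - C.cr x' y := by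
  rw [sub_eq_add_neg, C.cr_add_left, ← neg_one_smul K x', C.cr_smul_left, neg_one_smul,
    sub_eq_add_neg]

theorem adj_sub (x y : D) : C.adj (x - y) = C.adj x + C.adj y - C.cr x y := by
  rw [sub_eq_add_neg, C.adj_add, C.adj_neg, ← neg_one_smul K y, C.cr_smul_right, neg_one_smul,
    sub_eq_add_neg (C.adj x + C.adj y)]

theorem N_sub (x y : D) :
    C.N (x - y) = C.N x - C.T (C.adj x * y) + C.T (x * C.adj y) - C.N y := by
  rw [sub_eq_add_neg, C.N_add, C.adj_neg, C.N_neg, mul_neg, map_neg]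
  ring

theorem T_mul_adj (x : D) : C.T (x * C.adj x) = 3 * C.N x := by
  rw [C.mul_adj, map_smul, C.T_one, smul_eq_mul, mul_comm]

theorem T_adj_mul (x : D) : C.T (C.adj x * x) = 3 * C.N x := by
  rw [C.T_comm, C.T_mul_adj]

/-- Trilinearity: the three ways to write the polarised norm. -/
theorem T_mul_cr (x y z : D) : C.T (x * C.cr y z) = C.T (y * C.cr x z) := by
  rw [← C.T_cr_mul x y z, ← C.T_cr_mul y x z, C.cr_comm x y]

theorem T_mul_cr' (x y z : D) : C.T (x * C.cr y z) = C.T (z * C.cr x y) := by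
  rw [← C.T_cr_mul x y z, C.T_comm]

/-- The quadratic form in the coordinate `μ = ξ + d x₀ y`. -/
theorem Qf_mu (d : K) (g y : D) (x₀ : K) (m : D) :
    C.Qf d g y x₀ (m - (d * x₀) • y) = C.T (g * C.adj m) + d * x₀ * C.T ((y - C.cr g y) * m) +
      x₀ ^ 2 * (d ^ 2 * C.T (g * C.adj y) - d ^ 2 * C.T (y * y) + d) := by
  rw [Qf, C.adj_sub, C.adj_smul, C.cr_smul_right]
  have e : C.T (C.cr g y * m) = C.T (g * C.cr m y) := by
    rw [C.T_cr_mul, C.cr_comm]
  simp only [mul_sub, mul_add, sub_mul, mul_smul_comm, map_add, map_sub, map_smul, smul_eq_mul]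
  rw [e]
  ring

/-- The cubic form in the coordinate `μ = ξ + d x₀ y`. -/
theorem Cf_mu (d : K) (g y : D) (x₀ : K) (m : D) :
    C.Cf d g y x₀ (m - (d * x₀) • y) = C.N m + d * x₀ ^ 2 * C.T ((g - d • C.adj y) * m) +
      x₀ ^ 3 * (2 * d ^ 3 * C.N y - d ^ 2 * C.T (g * y)) := by
  rw [Cf, C.adj_sub, C.adj_smul, C.cr_smul_right, C.N_sub, C.adj_smul, C.N_smul]
  have e : C.T (y * C.cr m y) = 2 * C.T (m * C.adj y) := by
    rw [C.T_mul_cr, C.cr_self, mul_smul_comm, map_smul, smul_eq_mul]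
  have e2 := C.T_mul_adj y
  have e3 : C.T (y * C.adj m) = C.T (C.adj m * y) := C.T_comm _ _
  have e4 : C.T (C.adj y * m) = C.T (m * C.adj y) := C.T_comm _ _
  simp only [mul_sub, mul_add, sub_mul, mul_smul_comm, smul_mul_assoc, map_add, map_sub,
    map_smul, smul_eq_mul]
  rw [e, e2, e3, e4]
  ring

end ring

section div

variable [DivisionRing D] [Algebra K D] (C : Cub K D)

theorem T_cong_inv (b b' e x : D) :
    C.T (e * (b'⁻¹ * x * b⁻¹)) = C.T (b⁻¹ * e * b'⁻¹ * x) := by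
  rw [← mul_assoc, C.T_comm]
  simp only [mul_assoc]

/-- **The Skolem form.**  If `h = b' g b` is orthogonal to `adj f`, and `(x₀, r)` satisfies the
linear and quadratic conditions, and `f` solves the Skolem equation, then
`ξ = b'⁻¹ (f + r) b⁻¹ - d x₀ y` is a common zero of the two forms. -/
theorem skolem_form (d : K) {b b' : D} (hb : b ≠ 0) (hb' : b' ≠ 0) (g y r f : D) (x₀ : K)
    {n : K} (hn : n = C.N b * C.N b') {h e' G' : D} (hh : h = b' * g * b)
    (he : e' = b⁻¹ * (y - C.cr g y) * b'⁻¹) (hG : G' = b⁻¹ * (g - d • C.adj y) * b'⁻¹)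
    (h1 : C.T (h * C.adj f) = 0)
    (h2 : C.T ((C.cr h r + (n * d * x₀) • e') * f) = 0)
    (h3 : C.T (h * C.adj r) + n * d * x₀ * C.T (e' * r) +
      n * x₀ ^ 2 * (d ^ 2 * C.T (g * C.adj y) - d ^ 2 * C.T (y * y) + d) = 0)
    (h4 : C.T (C.adj f * r) = 0)
    (h5 : C.N f + C.T (f * (C.adj r + (n * d * x₀ ^ 2) • G')) +
      (C.N r + n * d * x₀ ^ 2 * C.T (G' * r) +
        n * x₀ ^ 3 * (2 * d ^ 3 * C.N y - d ^ 2 * C.T (g * y))) = 0) :
    C.Qf d g y x₀ (b'⁻¹ * (f + r) * b⁻¹ - (d * x₀) • y) = 0 ∧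
    C.Cf d g y x₀ (b'⁻¹ * (f + r) * b⁻¹ - (d * x₀) • y) = 0 := by
  have hn0 : n ≠ 0 := hn ▸ mul_ne_zero (C.N_ne_zero hb) (C.N_ne_zero hb')
  set m := b'⁻¹ * (f + r) * b⁻¹ with hm
  have hfr : b' * m * b = f + r := by
    rw [hm]
    calc b' * (b'⁻¹ * (f + r) * b⁻¹) * b = (b' * b'⁻¹) * (f + r) * (b⁻¹ * b) := by
          simp only [mul_assoc]
      _ = f + r := by rw [mul_inv_cancel₀ hb', inv_mul_cancel₀ hb, one_mul, mul_one]
  have t1 : n * C.T (g * C.adj m) = C.T (h * C.adj (f + r)) := by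
    rw [hn, hh, ← hfr, C.T_cong]
  have t2 : n * C.N m = C.N (f + r) := by rw [hn, ← C.N_cong, hfr]
  have t3 : C.T ((y - C.cr g y) * m) = C.T (e' * (f + r)) := by
    rw [hm, C.T_cong_inv, he]
  have t4 : C.T ((g - d • C.adj y) * m) = C.T (G' * (f + r)) := by
    rw [hm, C.T_cong_inv, hG]
  constructor
  · rw [C.Qf_mu, t3]
    apply mul_left_cancel₀ hn0
    rw [mul_zero, mul_add, mul_add, t1, C.adj_add]
    have e1 : C.T (h * C.cr f r) = C.T (C.cr h r * f) := by
      rw [C.T_cr_mul, C.cr_comm f r]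
    simp only [mul_add, add_mul, map_add, smul_mul_assoc, map_smul, smul_eq_mul] at h2 ⊢
    rw [e1]
    linear_combination h1 + h2 + h3
  · rw [C.Cf_mu, t4]
    apply mul_left_cancel₀ hn0
    rw [mul_zero, mul_add, mul_add, t2, C.N_add]
    have e2 : C.T (G' * f) = C.T (f * G') := C.T_comm _ _
    simp only [mul_add, map_add, mul_smul_comm, map_smul, smul_eq_mul] at h5 ⊢
    rw [e2]
    linear_combination h4 + h5

/-- A nonzero common zero has `x₀ ≠ 0`. -/
theorem x₀_ne_zero {d : K} {g y : D} {x₀ : K} {ξ : D} (hC : C.Cf d g y x₀ ξ = 0)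
    (hne : x₀ ≠ 0 ∨ ξ ≠ 0) : x₀ ≠ 0 := by
  intro h0
  rcases hne with h | h
  · exact h h0
  · rw [Cf, h0] at hC
    apply C.N_ne_zero h
    linear_combination hC

theorem Qf_smul (d : K) (g y : D) (c x₀ : K) (ξ : D) :
    C.Qf d g y (c * x₀) (c • ξ) = c ^ 2 * C.Qf d g y x₀ ξ := by
  rw [Qf, Qf, C.adj_smul]
  simp only [mul_smul_comm, map_smul, smul_eq_mul]
  ring

theorem Cf_smul (d : K) (g y : D) (c x₀ : K) (ξ : D) :
    C.Cf d g y (c * x₀) (c • ξ) = c ^ 3 * C.Cf d g y x₀ ξ := by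
  rw [Cf, Cf, C.adj_smul, C.N_smul]
  simp only [mul_smul_comm, map_smul, smul_eq_mul]
  ring

end div

end Cub

end Vale.Agent.P011.H775
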