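import Vale.Agent.P011.H268.Nrd
import Mathlib.LinearAlgebra.Matrix.Adjugate
import Mathlib.Tactic.NoncommRing
import Mathlib.Tactic.FieldSimp

/-!
# The cubic norm structure of a central simple algebra of degree three

`T` the reduced trace, `N` the reduced norm, `adj` the adjoint, with all the usual identities,
transported from `3 × 3` matrices.
-/

open Module Polynomial Matrix

namespace Vale.Agent.P011.H775

section mat

variable {R : Type*} [CommRing R]

theorem mat_cayley (M : Matrix (Fin 3) (Fin 3) R) :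
    M.adjugate = M * M - M.trace • M + M.adjugate.trace • (1 : Matrix (Fin 3) (Fin 3) R) := by
  rw [Matrix.adjugate_fin_three, Matrix.trace_fin_three, Matrix.trace_fin_three]
  ext i j
  fin_cases i <;> fin_cases j <;>
    simp [Matrix.mul_apply, Fin.sum_univ_three] <;> ring

theorem mat_charpoly (M : Matrix (Fin 3) (Fin 3) R) :
    M.charpoly = X ^ 3 - C M.trace * X ^ 2 + C M.adjugate.trace * X - C M.det := by
  rw [Matrix.charpoly, Matrix.det_fin_three, Matrix.adjugate_fin_three, Matrix.trace_fin_three,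
    Matrix.trace_fin_three, Matrix.det_fin_three]
  simp [Fin.ext_iff]
  ring

theorem mat_adj_add (A B : Matrix (Fin 3) (Fin 3) R) :
    (A + B).adjugate = A.adjugate + B.adjugate + (A * B + B * A - A.trace • B - B.trace • A +
      (A.trace * B.trace - (A * B).trace) • (1 : Matrix (Fin 3) (Fin 3) R)) := by
  rw [Matrix.adjugate_fin_three, Matrix.adjugate_fin_three, Matrix.adjugate_fin_three,
    Matrix.trace_fin_three, Matrix.trace_fin_three, Matrix.trace_fin_three]
  ext i j
  fin_cases i <;> fin_cases j <;>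
    simp [Matrix.mul_apply, Fin.sum_univ_three] <;> ring

theorem mat_det_add (A B : Matrix (Fin 3) (Fin 3) R) :
    (A + B).det = A.det + (A.adjugate * B).trace + (A * B.adjugate).trace + B.det := by
  rw [Matrix.det_fin_three, Matrix.det_fin_three, Matrix.det_fin_three, Matrix.adjugate_fin_three,
    Matrix.adjugate_fin_three, Matrix.trace_fin_three, Matrix.trace_fin_three]
  simp [Matrix.mul_apply, Fin.sum_univ_three]
  ring

end mat

/-- The reduced trace, the reduced norm and the adjoint of an algebra of degree three. -/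
structure Cub (K D : Type) [Field K] [Ring D] [Algebra K D] where
  /-- the reduced trace -/
  T : D →ₗ[K] K
  /-- the reduced norm -/
  N : D → K
  /-- the adjoint -/
  adj : D → D
  spl : ∃ (Ω : Type) (_ : Field Ω) (_ : Algebra K Ω) (f : D →ₐ[K] Matrix (Fin 3) (Fin 3) Ω),
    Function.Injective f ∧ (∀ x, (f x).trace = algebraMap K Ω (T x)) ∧
    (∀ x, (f x).det = algebraMap K Ω (N x)) ∧ ∀ x, (f x).adjugate = f (adj x)

namespace Cub

variable {K D : Type} [Field K] [Ring D] [Algebra K D] (C : Cub K D)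

/-- The second coefficient of the reduced characteristic polynomial. -/
def S (x : D) : K := C.T (C.adj x)

/-- The bilinear map attached to the adjoint. -/
def cr (x y : D) : D :=
  x * y + y * x - C.T x • y - C.T y • x + (C.T x * C.T y - C.T (x * y)) • (1 : D)

theorem mul_adj (x : D) : x * C.adj x = C.N x • (1 : D) := by
  obtain ⟨Ω, _, _, f, hf, hT, hN, hA⟩ := C.spl
  apply hf
  rw [map_mul, ← hA, Matrix.mul_adjugate, hN, map_smul, map_one, algebraMap_smul]

theorem adj_mul (x : D) : C.adj x * x = C.N x • (1 : D) := by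
  obtain ⟨Ω, _, _, f, hf, hT, hN, hA⟩ := C.spl
  apply hf
  rw [map_mul, ← hA, Matrix.adjugate_mul, hN, map_smul, map_one, algebraMap_smul]

theorem adj_mul_distrib (x y : D) : C.adj (x * y) = C.adj y * C.adj x := by
  obtain ⟨Ω, _, _, f, hf, hT, hN, hA⟩ := C.spl
  apply hf
  rw [map_mul, ← hA, ← hA, ← hA, map_mul, Matrix.adjugate_mul_distrib]

theorem adj_adj (x : D) : C.adj (C.adj x) = C.N x • x := by
  obtain ⟨Ω, _, _, f, hf, hT, hN, hA⟩ := C.spl
  apply hf
  rw [← hA, ← hA, Matrix.adjugate_adjugate' , hN, map_smul]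
  simp

theorem N_mul (x y : D) : C.N (x * y) = C.N x * C.N y := by
  obtain ⟨Ω, _, _, f, hf, hT, hN, hA⟩ := C.spl
  apply (algebraMap K Ω).injective
  rw [← hN, map_mul, map_mul, Matrix.det_mul, hN, hN]

theorem N_one : C.N 1 = 1 := by
  obtain ⟨Ω, _, _, f, hf, hT, hN, hA⟩ := C.spl
  apply (algebraMap K Ω).injective
  rw [← hN, map_one, Matrix.det_one, map_one]

theorem T_one : C.T 1 = 3 := by
  obtain ⟨Ω, _, _, f, hf, hT, hN, hA⟩ := C.spl
  apply (algebraMap K Ω).injective
  rw [← hT, map_one, Matrix.trace_one, Fintype.card_fin, map_ofNat]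
  norm_num

theorem adj_one : C.adj 1 = 1 := by
  obtain ⟨Ω, _, _, f, hf, hT, hN, hA⟩ := C.spl
  apply hf
  rw [← hA, map_one, Matrix.adjugate_one]

theorem T_comm (x y : D) : C.T (x * y) = C.T (y * x) := by
  obtain ⟨Ω, _, _, f, hf, hT, hN, hA⟩ := C.spl
  apply (algebraMap K Ω).injective
  rw [← hT, ← hT, map_mul, map_mul, Matrix.trace_mul_comm]

theorem N_smul (c : K) (x : D) : C.N (c • x) = c ^ 3 * C.N x := by
  obtain ⟨Ω, _, _, f, hf, hT, hN, hA⟩ := C.spl
  apply (algebraMap K Ω).injective
  rw [← hN, map_smul, ← algebraMap_smul Ω c, Matrix.det_smul, hN, Fintype.card_fin, map_mul,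
    map_pow]

theorem adj_smul (c : K) (x : D) : C.adj (c • x) = c ^ 2 • C.adj x := by
  obtain ⟨Ω, _, _, f, hf, hT, hN, hA⟩ := C.spl
  apply hf
  rw [← hA, map_smul, map_smul, ← algebraMap_smul Ω c, Matrix.adjugate_smul, hA,
    Fintype.card_fin, ← algebraMap_smul Ω (c ^ 2), map_pow]

theorem adj_eq (x : D) : C.adj x = x * x - C.T x • x + C.S x • (1 : D) := by
  obtain ⟨Ω, _, _, f, hf, hT, hN, hA⟩ := C.spl
  apply hf
  rw [← hA, mat_cayley, map_add, map_sub, map_mul, map_smul, map_smul, map_one, hT, hA, hT, S,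
    algebraMap_smul, algebraMap_smul]

theorem adj_add (x y : D) : C.adj (x + y) = C.adj x + C.adj y + C.cr x y := by
  obtain ⟨Ω, _, _, f, hf, hT, hN, hA⟩ := C.spl
  apply hf
  rw [← hA, map_add, mat_adj_add, map_add, map_add, hA, hA, cr, map_add, map_sub, map_sub,
    map_add, map_mul, map_mul, map_smul, map_smul, map_smul, map_one, hT, hT, ← map_mul f, hT,
    algebraMap_smul, algebraMap_smul, ← algebraMap_smul Ω (C.T x * C.T y - C.T (x * y)), map_sub,
    map_mul (algebraMap K Ω)]

theorem N_add (x y : D) :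
    C.N (x + y) = C.N x + C.T (C.adj x * y) + C.T (x * C.adj y) + C.N y := by
  obtain ⟨Ω, _, _, f, hf, hT, hN, hA⟩ := C.spl
  apply (algebraMap K Ω).injective
  rw [← hN, map_add, mat_det_add, hA, hA, ← map_mul, ← map_mul, hT, hT, hN, hN, map_add, map_add,
    map_add]

/-- Every element is a root of its reduced characteristic polynomial. -/
theorem cayley (x : D) : x * x * x - C.T x • (x * x) + C.S x • x - C.N x • (1 : D) = 0 := by
  have h1 := C.adj_mul x
  rw [C.adj_eq x, add_mul, sub_mul, smul_mul_assoc, smul_mul_assoc, one_mul] at h1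
  rw [← h1, sub_self]

theorem adj_zero : C.adj 0 = 0 := by
  have := C.adj_smul 0 0
  rw [zero_smul] at this
  rw [this]
  simp

theorem N_zero : C.N 0 = 0 := by
  have := C.N_smul 0 0
  rw [zero_smul] at this
  rw [this]
  simp

theorem S_smul (c : K) (x : D) : C.S (c • x) = c ^ 2 * C.S x := by
  rw [S, S, C.adj_smul, map_smul, smul_eq_mul]

theorem adj_neg (x : D) : C.adj (-x) = C.adj x := by
  have := C.adj_smul (-1) x
  rwa [neg_smul, one_smul, neg_one_sq, one_smul] at this

theorem N_neg (x : D) : C.N (-x) = -C.N x := by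
  have := C.N_smul (-1) x
  rw [neg_smul, one_smul] at this
  rw [this]
  ring

theorem cr_comm (x y : D) : C.cr x y = C.cr y x := by
  rw [cr, cr, C.T_comm y x, mul_comm (C.T y), add_comm (y * x)]
  abel

theorem cr_add_left (x x' y : D) : C.cr (x + x') y = C.cr x y + C.cr x' y := by
  simp only [cr, add_mul, mul_add, map_add, add_smul, smul_add, sub_smul]
  abel

theorem cr_add_right (x y y' : D) : C.cr x (y + y') = C.cr x y + C.cr x y' := by
  rw [C.cr_comm, C.cr_add_left, C.cr_comm y, C.cr_comm y']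

theorem cr_smul_left (c : K) (x y : D) : C.cr (c • x) y = c • C.cr x y := by
  simp only [cr, smul_mul_assoc, mul_smul_comm, map_smul, smul_eq_mul, smul_add, smul_sub,
    smul_smul]
  congr 2
  · rw [mul_comm (C.T y) c]
  · ring

theorem cr_smul_right (c : K) (x y : D) : C.cr x (c • y) = c • C.cr x y := by
  rw [C.cr_comm, C.cr_smul_left, C.cr_comm]

theorem cr_self (x : D) : C.cr x x = (2 : K) • C.adj x := by
  have h := C.adj_add x x
  rw [← two_smul K x, C.adj_smul] at h
  have h2 : C.cr x x = (2 : K) ^ 2 • C.adj x - C.adj x - C.adj x := by rw [h]; abel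
  rw [h2, sub_sub, ← two_smul K (C.adj x), ← sub_smul]
  congr 1
  norm_num

theorem T_cr (x y : D) : C.T (C.cr x y) = C.T x * C.T y - C.T (x * y) := by
  rw [cr]
  simp only [map_add, map_sub, map_smul, smul_eq_mul, C.T_one, C.T_comm y x]
  ring

theorem T_cr_mul (x y z : D) : C.T (C.cr x y * z) = C.T (x * C.cr y z) := by
  simp only [cr, add_mul, sub_mul, mul_add, mul_sub, smul_mul_assoc, mul_smul_comm, map_add,
    map_sub, map_smul, smul_eq_mul, one_mul, mul_one, mul_assoc]
  rw [C.T_comm y (x * z), mul_assoc x z y]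
  ring

end Cub

end Vale.Agent.P011.H775
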