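import Vale.Agent.P011.H775.VCalc

/-!
# Entries of the elements of `V`
-/

open Module Polynomial Matrix

namespace Vale.Agent.P011.H775

section od

variable {Ω : Type} [Field Ω]

/-- The matrix with zero diagonal and the given off-diagonal entries. -/
def od (x y : Fin 3 → Ω) : Matrix (Fin 3) (Fin 3) Ω :=
  !![0, x 2, y 1; y 2, 0, x 0; x 1, y 0, 0]

theorem od_det (x y : Fin 3 → Ω) : (od x y).det = x 0 * x 1 * x 2 + y 0 * y 1 * y 2 := by
  rw [od, Matrix.det_fin_three]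
  simp
  ring

theorem od_adj (x y : Fin 3 → Ω) : (od x y).adjugate =
    Matrix.diagonal ![-(x 0 * y 0), -(x 1 * y 1), -(x 2 * y 2)] +
      od ![y 1 * y 2, y 2 * y 0, y 0 * y 1] ![x 1 * x 2, x 2 * x 0, x 0 * x 1] := by
  rw [od, od, Matrix.adjugate_fin_three]
  ext i j
  fin_cases i <;> fin_cases j <;> simp <;> ring

theorem od_tr (x y z w : Fin 3 → Ω) : (od x y * od z w).trace =
    ∑ i, (x i * w i + y i * z i) := by
  rw [od, od, Matrix.trace_fin_three, Fin.sum_univ_three]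
  simp [Matrix.mul_apply, Fin.sum_univ_three]
  ring

end od

variable {k K F D : Type} [Field k] [Field K] [Field F] [Algebra k K] [Algebra k F]

section ring

variable [Ring D] [Algebra k D] [Algebra K D]

/-- The action of `F` on `V`. -/
def act (C : Cub K D) (φ : F →ₐ[k] D) (w : F) (v : D) : D :=
  C.T (φ w) • v - φ w * v - v * φ w

variable {C : Cub K D} {φ : F →ₐ[k] D} {Ω : Type} [Field Ω] [Algebra K Ω] (S : DSpl C φ Ω)

/-- The entries `x 1 2`, `x 2 0`, `x 0 1`. -/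
def DSpl.xp (x : D) : Fin 3 → Ω := ![S.f x 1 2, S.f x 2 0, S.f x 0 1]

/-- The entries `x 2 1`, `x 0 2`, `x 1 0`. -/
def DSpl.xm (x : D) : Fin 3 → Ω := ![S.f x 2 1, S.f x 0 2, S.f x 1 0]

theorem DSpl.f_eq_od {x : D} (hx : ∀ i, S.f x i i = 0) : S.f x = od (S.xp x) (S.xm x) := by
  ext i j
  fin_cases i <;> fin_cases j <;> simp [od, DSpl.xp, DSpl.xm, hx]

theorem DSpl.T_φ (w : F) : algebraMap K Ω (C.T (φ w)) = S.σ 0 w + S.σ 1 w + S.σ 2 w := by
  rw [← S.tr, S.dg, Matrix.trace_diagonal, Fin.sum_univ_three]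

theorem DSpl.f_act (w : F) (x : D) (i j : Fin 3) : S.f (act C φ w x) i j =
    (S.σ 0 w + S.σ 1 w + S.σ 2 w - S.σ i w - S.σ j w) * S.f x i j := by
  rw [act, map_sub, map_sub, map_smul, map_mul, map_mul, S.dg, Matrix.sub_apply,
    Matrix.sub_apply, Matrix.diagonal_mul, Matrix.mul_diagonal, ← S.T_φ, Matrix.smul_apply,
    Algebra.smul_def]
  ring

theorem DSpl.xp_act (w : F) (x : D) (i : Fin 3) : S.xp (act C φ w x) i = S.σ i w * S.xp x i := by
  fin_cases i <;> simp [DSpl.xp, DSpl.f_act] <;> left <;> ring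

theorem DSpl.xm_act (w : F) (x : D) (i : Fin 3) : S.xm (act C φ w x) i = S.σ i w * S.xm x i := by
  fin_cases i <;> simp [DSpl.xm, DSpl.f_act] <;> left <;> ring

theorem DSpl.xp_add (x y : D) (i : Fin 3) : S.xp (x + y) i = S.xp x i + S.xp y i := by
  fin_cases i <;> simp [DSpl.xp]

theorem DSpl.xm_add (x y : D) (i : Fin 3) : S.xm (x + y) i = S.xm x i + S.xm y i := by
  fin_cases i <;> simp [DSpl.xm]

theorem DSpl.xp_smul (c : K) (x : D) (i : Fin 3) :
    S.xp (c • x) i = algebraMap K Ω c * S.xp x i := by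
  rw [← Algebra.smul_def]
  fin_cases i <;> simp [DSpl.xp]

theorem DSpl.xm_smul (c : K) (x : D) (i : Fin 3) :
    S.xm (c • x) i = algebraMap K Ω c * S.xm x i := by
  rw [← Algebra.smul_def]
  fin_cases i <;> simp [DSpl.xm]

/-- The product over the three embeddings. -/
theorem DSpl.norm_eq (w : F) :
    algebraMap K Ω (algebraMap k K (Algebra.norm k w)) = S.σ 0 w * S.σ 1 w * S.σ 2 w := by
  rw [← S.nmF, Fin.prod_univ_three]

theorem DSpl.trace_eq (w : F) :
    algebraMap K Ω (algebraMap k K (Algebra.trace k F w)) = S.σ 0 w + S.σ 1 w + S.σ 2 w := by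
  rw [← S.trF, Fin.sum_univ_three]

/-- Entries of the elements with zero diagonal. -/
structure DSpl.Off (x : D) : Prop where
  dg : ∀ i, S.f x i i = 0

variable {S}

theorem DSpl.Off.act {x : D} (hx : S.Off x) (w : F) : S.Off (H775.act C φ w x) :=
  ⟨fun i => by rw [S.f_act, hx.dg, mul_zero]⟩

theorem DSpl.Off.add {x y : D} (hx : S.Off x) (hy : S.Off y) : S.Off (x + y) :=
  ⟨fun i => by rw [map_add, Matrix.add_apply, hx.dg, hy.dg, add_zero]⟩

theorem DSpl.Off.smul {x : D} (hx : S.Off x) (c : K) : S.Off (c • x) :=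
  ⟨fun i => by rw [map_smul, Matrix.smul_apply, hx.dg, smul_zero]⟩

/-- An element with zero diagonal is determined by its entries. -/
theorem DSpl.Off.ext {x y : D} (hx : S.Off x) (hy : S.Off y) (hp : ∀ i, S.xp x i = S.xp y i)
    (hm : ∀ i, S.xm x i = S.xm y i) : x = y := by
  apply S.inj
  rw [S.f_eq_od hx.dg, S.f_eq_od hy.dg, funext hp, funext hm]

theorem DSpl.Off.N {x : D} (hx : S.Off x) : algebraMap K Ω (C.N x) =
    S.xp x 0 * S.xp x 1 * S.xp x 2 + S.xm x 0 * S.xm x 1 * S.xm x 2 := by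
  rw [← S.det, S.f_eq_od hx.dg, od_det]

theorem DSpl.Off.adj {x : D} (hx : S.Off x) : S.f (C.adj x) =
    Matrix.diagonal ![-(S.xp x 0 * S.xm x 0), -(S.xp x 1 * S.xm x 1), -(S.xp x 2 * S.xm x 2)] +
      od ![S.xm x 1 * S.xm x 2, S.xm x 2 * S.xm x 0, S.xm x 0 * S.xm x 1]
        ![S.xp x 1 * S.xp x 2, S.xp x 2 * S.xp x 0, S.xp x 0 * S.xp x 1] := by
  rw [← S.adj]
  conv_lhs => rw [S.f_eq_od hx.dg]
  rw [od_adj]

theorem DSpl.Off.adj_diag {x : D} (hx : S.Off x) (i : Fin 3) :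
    S.f (C.adj x) i i = -(S.xp x i * S.xm x i) := by
  rw [hx.adj]
  fin_cases i <;> simp [od]

theorem DSpl.Off.T_mul_adj {x y : D} (hx : S.Off x) (hy : S.Off y) :
    algebraMap K Ω (C.T (y * C.adj x)) =
      S.xp y 0 * (S.xp x 1 * S.xp x 2) + S.xp y 1 * (S.xp x 2 * S.xp x 0) +
      S.xp y 2 * (S.xp x 0 * S.xp x 1) + (S.xm y 0 * (S.xm x 1 * S.xm x 2) +
      S.xm y 1 * (S.xm x 2 * S.xm x 0) + S.xm y 2 * (S.xm x 0 * S.xm x 1)) := by
  rw [← S.tr, map_mul, hx.adj, S.f_eq_od hy.dg, mul_add, Matrix.trace_add, od_tr,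
    Fin.sum_univ_three, Matrix.trace_fin_three]
  simp only [Matrix.mul_diagonal]
  simp [od]
  ring

theorem DSpl.Off.T_mul {x y : D} (hx : S.Off x) (hy : S.Off y) :
    algebraMap K Ω (C.T (x * y)) =
      ∑ i, (S.xp x i * S.xm y i + S.xm x i * S.xp y i) := by
  rw [← S.tr, map_mul, S.f_eq_od hx.dg, S.f_eq_od hy.dg, od_tr]

theorem DSpl.Off.cr_diag {x y : D} (hx : S.Off x) (hy : S.Off y) (i : Fin 3) :
    S.f (C.cr x y) i i = -(S.xp x i * S.xm y i + S.xm x i * S.xp y i) := by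
  have h : C.cr x y = C.adj (x + y) - C.adj x - C.adj y := by
    rw [C.adj_add]
    abel
  rw [h, map_sub, map_sub, Matrix.sub_apply, Matrix.sub_apply, (hx.add hy).adj_diag,
    hx.adj_diag, hy.adj_diag, S.xp_add, S.xm_add]
  ring

end ring

end Vale.Agent.P011.H775
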