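import Vale.Agent.P011.H775.Orth
import Vale.Agent.P011.H182.Conic

/-!
# The family of Skolem surfaces over a conic of the parameter quadric
-/

set_option linter.unusedSectionVars false

open Module Polynomial Matrix

namespace Vale.Agent.P011.H775

open Vale.Agent.P011.H182.Conic (pt apoly exists_conic coeff_apoly eval_apoly)

variable {k K F D : Type} [Field k] [Field K] [Field F] [Algebra k K] [Algebra k F]

variable [StarRing K] [DivisionRing D] [StarRing D] [Algebra k D] [Algebra K D]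
  [FiniteDimensional K D] [Algebra.IsCentral K D] [IsScalarTower k K D]
  [FiniteDimensional k F] [Algebra.IsSeparable k F]

variable {C : Cub K D} {φ : F →ₐ[k] D}

/-- **The family of Skolem surfaces over a conic of the parameter quadric through a given
point.** -/
theorem Dat.exists_family [Infinite k] (M : Dat C φ) {ρ : F × k} (hρ : M.Q ρ = 0)
    (hρp : QuadraticMap.polar M.Q ρ (sh k M.a, 0) ≠ 0) (hρA : M.A ρ ≠ 0) :
    ∃ (ap : F[X]) (g : k[X]) (pt : k → F × k) (t₀ : F), t₀ ≠ 0 ∧ ap.natDegree ≤ 4 ∧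
      ap.coeff 4 ≠ 0 ∧ g.natDegree ≤ 6 ∧
      (∀ t : AlgebraicClosure k, ∃ σ : F →ₐ[k] AlgebraicClosure k,
        (ap.map (σ : F →+* AlgebraicClosure k)).eval t ≠ 0) ∧
      ap.eval 0 = M.A ρ ∧ g.eval 0 = M.G ρ ∧ ap.coeff 4 = M.A (t₀, 0) ∧
      g.coeff 6 = M.G (t₀, 0) ∧
      ∀ t : k, M.Q (pt t) = 0 ∧ pt t ≠ 0 ∧ ap.eval (algebraMap k F t) = M.A (pt t) ∧
        g.eval t = M.G (pt t) := by
  classical
  have hsh := M.sh_a_ne_zero
  have hA := M.A_apply
  obtain ⟨μ, c, hc, hQt, hdeg, hcoef, hco, hev⟩ := exists_conic M.Q (by rw [M.H.hF])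
    (M.Q_inf M.ha) hρ hρp M.exists_rank M.al_ne_zero (by rw [← hA]; exact hρA)
    (by
      simp only [map_zero, ne_eq, OfNat.ofNat_ne_zero, not_false_eq_true, zero_pow, mul_zero,
        add_zero]
      exact mul_ne_zero M.al_ne_zero (pow_ne_zero 2 hsh))
  set ap := apoly M.al M.be ρ μ (sh k M.a, 0) c with hap
  obtain ⟨g, hg, hg6, hgev⟩ := M.exists_G_poly ![ρ, μ, (-c) • (sh k M.a, 0)]
  have hpt : ∀ t : k, ∑ j : Fin 3, t ^ (j : ℕ) • (![ρ, μ, (-c) • (sh k M.a, 0)] :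
      Fin 3 → F × k) j = pt ρ μ (sh k M.a, 0) c t := fun t => by
    rw [Fin.sum_univ_three, pt]
    simp only [Matrix.cons_val_zero, Matrix.cons_val_one, Matrix.cons_val_two, Matrix.tail_cons,
      Matrix.head_cons, Fin.val_zero, Fin.val_one, Fin.val_two, pow_zero, one_smul, pow_one,
      smul_smul]
    congr 2
    ring
  have hev' : ∀ t : k, ap.eval (algebraMap k F t) = M.A (pt ρ μ (sh k M.a, 0) c t) := fun t => by
    rw [hev, hA]
  have hgev' : ∀ t : k, g.eval t = M.G (pt ρ μ (sh k M.a, 0) c t) := fun t => by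
    rw [← hgev, hpt]
  have hpt0 : pt ρ μ (sh k M.a, 0) c 0 = ρ := by
    rw [pt]
    simp
  have hap0 : ap.eval 0 = M.A ρ := by
    have h := hev' 0
    rwa [map_zero, hpt0] at h
  have hg0 : g.eval 0 = M.G ρ := by rw [hgev', hpt0]
  have hap4 : ap.coeff 4 = M.A ((-c) • sh k M.a, 0) := by
    rw [hap, coeff_apoly, hA]
    simp only [map_zero, ne_eq, OfNat.ofNat_ne_zero, not_false_eq_true, zero_pow, mul_zero,
      add_zero, Algebra.smul_def, map_neg]
    ring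
  have hg6' : g.coeff 6 = M.G ((-c) • sh k M.a, 0) := by
    rw [hg6]
    simp
  have htinf : (-c) • sh k M.a ≠ 0 := smul_ne_zero (neg_ne_zero.2 hc) hsh
  have hAt : ∀ t : k, M.A (pt ρ μ (sh k M.a, 0) c t) ≠ 0 := by
    intro t h1
    obtain ⟨σ, hσ⟩ := hco (algebraMap k _ t)
    apply hσ
    have h2 : algebraMap k (AlgebraicClosure k) t =
        (σ : F →+* AlgebraicClosure k) (algebraMap k F t) := (σ.commutes t).symm
    rw [h2, Polynomial.eval_map, Polynomial.eval₂_hom, hev', h1, map_zero]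
  refine ⟨ap, g, pt ρ μ (sh k M.a, 0) c, (-c) • sh k M.a, htinf, hdeg, hcoef, hg, hco, hap0, hg0,
    hap4, hg6', fun t => ⟨hQt t, ?_, hev' t, hgev' t⟩⟩
  intro h1
  apply hAt t
  rw [h1, hA]
  simp

/-- **From a point of the parameter quadric to a Skolem surface which is solvable everywhere
locally**, from a solution of the Skolem problem in families. -/
theorem Dat.exists_of_family [Infinite k] (M : Dat C φ) {ι : Type}
    (P₀ P : ι → F → k → Prop)
    {T : Set ι}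
    (hsf : ∀ (ap : F[X]) (g : k[X]), ap.natDegree ≤ 4 → ap.coeff 4 ≠ 0 → ap.eval 0 ≠ 0 →
      (∀ t : AlgebraicClosure k, ∃ σ : F →ₐ[k] AlgebraicClosure k,
        (ap.map (σ : F →+* AlgebraicClosure k)).eval t ≠ 0) → g.natDegree ≤ 6 →
      (∀ v ∈ T, P₀ v (ap.eval 0) (g.eval 0)) → (∀ v ∉ T, P v (ap.coeff 4) (g.coeff 6)) →
      ∃ (t : k) (f : F), Algebra.norm k f +
        Algebra.trace k F (ap.eval (algebraMap k F t) * f) + g.eval t = 0)
    {ρ : F × k} (hρ : M.Q ρ = 0)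
    (hρp : QuadraticMap.polar M.Q ρ (sh k M.a, 0) ≠ 0) (hρA : M.A ρ ≠ 0)
    (h0 : ∀ v ∈ T, P₀ v (M.A ρ) (M.G ρ))
    (hinf : ∀ v ∉ T, ∀ t : F, t ≠ 0 → P v (M.A (t, 0)) (M.G (t, 0))) :
    ∃ z : F × k, z ≠ 0 ∧ M.Q z = 0 ∧ ∃ e : F,
      Algebra.norm k e + Algebra.trace k F (e * M.A z) + M.G z = 0 := by
  obtain ⟨ap, g, pt, t₀, ht₀, hdeg, hcoef, hg, hco, hap0, hg0, hap4, hg6, hpt⟩ :=
    M.exists_family hρ hρp hρA
  obtain ⟨t, f, hf⟩ := hsf ap g hdeg hcoef (by rw [hap0]; exact hρA) hco hg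
    (fun v hv => by rw [hap0, hg0]; exact h0 v hv)
    (fun v hv => by rw [hap4, hg6]; exact hinf v hv t₀ ht₀)
  obtain ⟨h1, h2, h3, h4⟩ := hpt t
  refine ⟨pt t, h2, h1, f, ?_⟩
  rw [mul_comm f, ← h3, ← h4]
  exact hf

end Vale.Agent.P011.H775
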