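import Vale.Agent.P011.H775.Fam
import Vale.Agent.P011.H872.PtInf
import Vale.Agent.P011.H211.SkFam
import Vale.Agent.P011.Pow.CentT

/-!
# The Skolem step

A point of the parameter quadric at which the Skolem equation is solvable at the places of `Tdiv`
gives a point of the parameter quadric at which the Skolem equation is solvable.
-/

set_option linter.unusedSectionVars false

open Module Polynomial NumberField IsDedekindDomain

namespace Vale.Agent.P011.H775

open Vale.Agent.P011.Arith Vale.Agent.P011.Even Vale.Agent.P011.Two Vale.Agent.P011.One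
  Vale.Agent.P011.W Vale.Agent.P011.H211

variable {k K D F : Type} [Field k] [NumberField k] [Field K] [NumberField K] [StarRing K]
  [DivisionRing D] [StarRing D] [Algebra k K] [Algebra k D] [Algebra K D] [IsScalarTower k K D]
  [FiniteDimensional K D] [Algebra.IsCentral K D] {d : kˣ} {s : K}
  [Field F] [NumberField F] [Algebra k F]
  {C : Cub K D} {φ : F →ₐ[k] D}

/-- **The Skolem step.** -/
theorem Dat.exists_of_crit (hS : Setting k K D d s) (hdeg : finrank K D = 3 ^ 2)
    [FiniteDimensional k F] [Algebra.IsSeparable k F] (M : Dat C φ) {ρ : F × k} (hρ : M.Q ρ = 0)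
    (hρp : QuadraticMap.polar M.Q ρ (sh k M.a, 0) ≠ 0) (hρA : M.A ρ ≠ 0)
    (h0 : ∀ v : HeightOneSpectrum (𝓞 k), (Sum.inl v : Pl k) ∈ Tdiv k K D →
      LPt v (M.A ρ) (M.G ρ) ∨
        Good F (v.valuation k) (Algebra.norm k (M.A ρ)) (M.G ρ)) :
    ∃ z : F × k, z ≠ 0 ∧ M.Q z = 0 ∧ ∃ e : F,
      Algebra.norm k e + Algebra.trace k F (e * M.A z) + M.G z = 0 := by
  have hT : {v : HeightOneSpectrum (𝓞 k) | (Sum.inl v : Pl k) ∈ Tdiv k K D}.Finite :=
    Set.Finite.preimage (Sum.inl_injective.injOn) (Pow.tdiv_finite (by norm_num) hdeg)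
  refine M.exists_of_family
    (T := {v : HeightOneSpectrum (𝓞 k) | (Sum.inl v : Pl k) ∈ Tdiv k K D})
    (fun v A G => LPt v A G ∨ Good F (v.valuation k) (Algebra.norm k A) G)
    (fun v A G => LPt v A G) ?_ hρ hρp hρA (fun v hv => h0 v hv)
    (fun v hv t _ => H872.lPt_inf hS hdeg M hv t)
  intro ap g h1 h2 _ h3 h4 h5 h6
  obtain ⟨t, -, -, f, hf⟩ := skolem_family M.H.hF ap h1 h2 h3 g h4 hT h5 h6
    (Set.finite_empty (α := k))
  exact ⟨t, f, hf⟩

end Vale.Agent.P011.H775
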