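import Vale.Agent.P011.H775.Orth
import Vale.Agent.P011.H182.Conic
import Vale.Agent.P011.H271.ConF3

/-!
# The conic in the parameter quadric and the Skolem equation: global function fields
-/

set_option linter.unusedSectionVars false

open Module Polynomial Matrix

namespace Vale.Agent.P011.H775

open Vale.Agent.P011.H738 Vale.Agent.P011.H271
open Vale.Agent.P011.H182.Conic (pt apoly exists_conic coeff_apoly eval_apoly)

variable {k K F D : Type} [Field k] [GFF k] [Field K] [Field F]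
  [Algebra k K] [Algebra k F]

variable [StarRing K] [DivisionRing D] [StarRing D] [Algebra k D] [Algebra K D]
  [FiniteDimensional K D] [Algebra.IsCentral K D] [IsScalarTower k K D]
  [FiniteDimensional k F] [Algebra.IsSeparable k F]

variable {C : Cub K D} {φ : F →ₐ[k] D}

/-- **From a point of the parameter quadric to a Skolem surface which is solvable everywhere
locally.**  The predicates `Good` and `Lp` are the local criteria. -/
theorem Dat.exists_of_localF [Infinite k] (M : Dat C φ) (v₀ : Place k)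
    (Good : Place k → k → k → Prop)
    (Lp : Place k → F → k → Prop)
    {S₀ : Set (Place k)} (hS₀ : S₀.Finite)
    (hsk : ∀ A : F, A ≠ 0 → ∀ G : k, (∀ v : Place k,
      Nonempty (F →ₐ[k] v.comp) ∨ ∃ c : k, c ≠ 0 ∧
        (Good v (c ^ 6 * Algebra.norm k A) (c ^ 3 * G) ∨
          (v ∉ S₀ ∧ v.abv (c ^ 6 * Algebra.norm k A) = 1 ∧
            v.abv (c ^ 3 * G) ≤ 1))) →
      ∃ f : F, Algebra.norm k f + Algebra.trace k F (A * f) + G = 0)
    (hnear : ∀ (v : Place k) (a : F[X]) (g : k[X]), a.natDegree ≤ 4 →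
      g.natDegree ≤ 6 → a.eval 0 ≠ 0 → Lp v (a.eval 0) (g.eval 0) →
      ¬ Nonempty (F →ₐ[k] v.comp) → ∃ γ : ℝ, 0 < γ ∧ ∀ t : k,
        v.abv t < γ → ∃ c : k, c ≠ 0 ∧
          Good v (c ^ 6 * Algebra.norm k (a.eval (algebraMap k F t))) (c ^ 3 * g.eval t))
    (hfar : ∀ (v : Place k) (a : F[X]) (g : k[X]), a.natDegree ≤ 4 →
      g.natDegree ≤ 6 → a.coeff 4 ≠ 0 → Lp v (a.coeff 4) (g.coeff 6) →
      ¬ Nonempty (F →ₐ[k] v.comp) → ∃ γ : ℝ, ∀ t : k,
        γ < v.abv t → ∃ c : k, c ≠ 0 ∧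
          Good v (c ^ 6 * Algebra.norm k (a.eval (algebraMap k F t))) (c ^ 3 * g.eval t))
    {T : Set (Place k)} (hT : T.Finite) {ρ : F × k} (hρ : M.Q ρ = 0)
    (hρp : QuadraticMap.polar M.Q ρ (sh k M.a, 0) ≠ 0) (hρA : M.A ρ ≠ 0)
    (h0 : ∀ v ∈ T, Nonempty (F →ₐ[k] v.comp) ∨ Lp v (M.A ρ) (M.G ρ))
    (hinf : ∀ v ∉ T, Nonempty (F →ₐ[k] v.comp) ∨
      ∀ t : F, t ≠ 0 → Lp v (M.A (t, 0)) (M.G (t, 0))) :
    ∃ z : F × k, z ≠ 0 ∧ M.Q z = 0 ∧ ∃ e : F,
      Algebra.norm k e + Algebra.trace k F (e * M.A z) + M.G z = 0 := by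
  classical
  have hsh := M.sh_a_ne_zero
  have hA := M.A_apply
  obtain ⟨μ, c, hc, hQt, hdeg, hcoef, hco, hev⟩ := exists_conic M.Q (by rw [M.H.hF])
    (M.Q_inf M.ha) hρ hρp M.exists_rank M.al_ne_zero (by rw [← hA]; exact hρA)
    (by
      simp only [map_zero, ne_eq, OfNat.ofNat_ne_zero, not_false_eq_true, zero_pow, mul_zero,
        add_zero]
      exact mul_ne_zero M.al_ne_zero (pow_ne_zero 2 hsh))
  set ap := apoly M.al M.be ρ μ (sh k M.a, 0) c with hap
  obtain ⟨g, hg, hg6, hgev⟩ := M.exists_G_poly ![ρ, μ, (-c) • (sh k M.a, 0)]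
  have hpt : ∀ t : k, ∑ j : Fin 3, t ^ (j : ℕ) • (![ρ, μ, (-c) • (sh k M.a, 0)] :
      Fin 3 → F × k) j = pt ρ μ (sh k M.a, 0) c t := fun t => by
    rw [Fin.sum_univ_three, pt]
    simp only [Matrix.cons_val_zero, Matrix.cons_val_one, Matrix.cons_val_two, Matrix.tail_cons,
      Matrix.head_cons, Fin.val_zero, Fin.val_one, Fin.val_two, pow_zero, one_smul, pow_one,
      smul_smul]
    congr 2
    ring
  have hev' : ∀ t : k, ap.eval (algebraMap k F t) = M.A (pt ρ μ (sh k M.a, 0) c t) := fun t => by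
    rw [hev, hA]
  have hgev' : ∀ t : k, g.eval t = M.G (pt ρ μ (sh k M.a, 0) c t) := fun t => by
    rw [← hgev, hpt]
  have hpt0 : pt ρ μ (sh k M.a, 0) c 0 = ρ := by
    rw [pt]
    simp
  have hap0 : ap.eval 0 = M.A ρ := by
    have h := hev' 0
    rwa [map_zero, hpt0] at h
  have hg0 : g.eval 0 = M.G ρ := by rw [hgev', hpt0]
  have hap4 : ap.coeff 4 = M.A ((-c) • sh k M.a, 0) := by
    rw [hap, coeff_apoly, hA]
    simp only [map_zero, ne_eq, OfNat.ofNat_ne_zero, not_false_eq_true, zero_pow, mul_zero,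
      add_zero, Algebra.smul_def, map_neg]
    ring
  have hg6' : g.coeff 6 = M.G ((-c) • sh k M.a, 0) := by
    rw [hg6]
    simp
  have htinf : (-c) • sh k M.a ≠ 0 := smul_ne_zero (neg_ne_zero.2 hc) hsh
  obtain ⟨t, -, -, ht⟩ := H271.ConF.exists_goodF M.H.hF ap hdeg hcoef hco g hg
    (fun v t => Nonempty (F →ₐ[k] v.comp) ∨ ∃ c : k, c ≠ 0 ∧
      Good v (c ^ 6 * Algebra.norm k (ap.eval (algebraMap k F t))) (c ^ 3 * g.eval t))
    hS₀ hT Set.finite_empty
    (fun v hv => by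
      by_cases hp : Nonempty (F →ₐ[k] v.comp)
      · exact ⟨1, one_pos, fun t _ => Or.inl hp⟩
      · obtain ⟨γ, h1, h2⟩ := hnear v ap g hdeg hg (by rw [hap0]; exact hρA)
          (by rw [hap0, hg0]; exact (h0 v hv).resolve_left hp) hp
        exact ⟨γ, h1, fun t ht => Or.inr (h2 t ht)⟩)
    (fun v hv => by
      by_cases hp : Nonempty (F →ₐ[k] v.comp)
      · exact Or.inl hp
      · obtain ⟨γ, h2⟩ := hfar v ap g hdeg hg hcoef
          (by rw [hap4, hg6']; exact (hinf v hv).resolve_left hp _ htinf) hp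
        exact Or.inr ⟨γ, fun t ht => Or.inr (h2 t ht)⟩) v₀
  have hAt : M.A (pt ρ μ (sh k M.a, 0) c t) ≠ 0 := by
    intro h1
    obtain ⟨σ, hσ⟩ := hco (algebraMap k _ t)
    apply hσ
    have h2 : algebraMap k (AlgebraicClosure k) t =
        (σ : F →+* AlgebraicClosure k) (algebraMap k F t) := (σ.commutes t).symm
    rw [h2, Polynomial.eval_map, Polynomial.eval₂_hom, hev', h1, map_zero]
  refine ⟨pt ρ μ (sh k M.a, 0) c t, ?_, hQt t, ?_⟩
  · intro h1
    apply hAt
    rw [h1, hA]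
    simp
  · obtain ⟨f, hf⟩ := hsk _ hAt (M.G (pt ρ μ (sh k M.a, 0) c t)) fun v => by
      rcases ht v with (h1 | ⟨c', hc', h1⟩) | h1 | ⟨h1, h2, h3⟩
      · exact Or.inl h1
      · right
        refine ⟨c', hc', Or.inl ?_⟩
        rw [← hev', ← hgev']
        exact h1
      · exact Or.inl h1
      · right
        obtain ⟨c', hc', h4, h5⟩ := H271.ConF.exists_scale M.H.hF h2 h3
        refine ⟨c', hc', Or.inr ⟨h1, ?_, ?_⟩⟩
        · rw [← hev', ← h4, map_mul (Algebra.norm k), Algebra.norm_algebraMap, M.H.hF, ← pow_mul]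
        · rw [← hgev']
          exact h5
    refine ⟨f, ?_⟩
    rw [mul_comm f]
    exact hf

end Vale.Agent.P011.H775
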