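import Vale.Agent.P011.H775.M3c
import Vale.Agent.P011.Even.Defs

/-!
# From a unitary point and an isotropic element to a chart
-/

set_option linter.unusedSectionVars false

open Module Polynomial Matrix

namespace Vale.Agent.P011.H775

open H948

variable {k K D : Type} [Field k] [NumberField k] [Field K] [StarRing K]
    [DivisionRing D] [StarRing D] [Algebra k K] [Algebra k D] [Algebra K D] [IsScalarTower k K D]

theorem S_three_add {C : Cub K D} {g : D} (hg0 : g ≠ 0) (hTg : C.T g = -1) :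
    C.T (C.adj (pp g * g)) = 9 * C.S g - 3 := by
  have h3 : (3 : D) = (3 : K) • (1 : D) := by
    rw [ofNat_smul_eq_nsmul, nsmul_eq_mul, mul_one]
    rfl
  have e : pp g * g = (3 : K) • g + 1 := by
    rw [pp, add_mul, inv_mul_cancel₀ hg0, h3, smul_mul_assoc, one_mul]
  rw [e, C.adj_add, C.adj_smul, C.adj_one, map_add, map_add, map_smul, C.T_one, C.T_cr, map_smul,
    mul_one, map_smul, hTg, C.T_one, smul_eq_mul, smul_eq_mul, Cub.S]
  ring

/-- **The chart attached to a unitary element and an isotropic element.** -/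
theorem exists_dat_of_chart {d : kˣ} {s : K} (hS : Even.Setting k K D d s)
    (hdeg : finrank K D = 3 ^ 2) (C : Cub K D) {x u : D} (hu : u * star u = 1)
    (hT : C.T ((x - 1) * u) ≠ 0) :
    ∃ g y : D, star g = g ∧ star y = y ∧ C.T g = -1 ∧ C.T y = 0 ∧
      (2 : K) • ((C.T ((x - 1) * u))⁻¹ • ((x - 1) * u)) = 1 + g + s • y ∧
      ∀ r : D, (∀ c : K, g ≠ c • (1 : D)) → 3 * C.S g ≠ 1 → star r = r → r ≠ 0 → C.T r = 0 →
        C.T (g * r) = 0 → C.T (g * g * r) = 0 → C.T (g * pp g * pp g * C.adj r) = 0 →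
        ∃ (F : Type) (_ : Field F) (_ : NumberField F) (_ : Algebra k F) (φ : F →ₐ[k] D)
          (σ : F) (_ : FiniteDimensional K D) (_ : Algebra.IsCentral K D) (M : Dat C φ),
          finrank k F = 3 ∧ φ σ = r * (pp g)⁻¹ ∧
          M.p = pp g ∧ M.g = g ∧ M.y = y ∧ M.δ = s ∧ M.d = (d : k) ∧
          ∀ z : F × k, z ≠ 0 → M.Q z = 0 → ∀ e : F,
            Algebra.norm k e + Algebra.trace k F (e * M.A z) + M.G z = 0 →
            ∃ w : D, w * star w = 1 ∧ C.T ((x - 1) * w) = 0 := by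
  have := hS.fin
  have := hS.cen
  have hk0 : CharZero K := charZero_of_injective_algebraMap (algebraMap k K).injective
  have h20 : (2 : K) ≠ 0 := by norm_num
  have h30 : (3 : K) ≠ 0 := by norm_num
  have hC := sCub_of C hdeg hS.star_smul
  have hs0 : s ≠ 0 := by
    intro h0
    have h := hS.sq
    rw [h0, zero_pow (by norm_num)] at h
    exact (_root_.map_ne_zero (algebraMap k K)).2 d.ne_zero h.symm
  obtain ⟨g, y, hg, hy, hTg, hTy, h2, hw⟩ := hC.exists_chart h20 hs0 hS.star_s hS.sq hu hT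
  refine ⟨g, y, hg, hy, hTg, hTy, h2, ?_⟩
  intro r hgc hSg hr hr0 e1 e2 e3 e4
  have hfix : ∀ c : K, star c = c → ∃ c' : k, algebraMap k K c' = c := fun c hc =>
    (hS.fix c).1 hc
  have hkfix : ∀ c : k, star (algebraMap k K c) = algebraMap k K c := fun c =>
    (hS.fix _).2 ⟨c, rfl⟩
  obtain ⟨F, _, _, _, φ, σ, hF, hσ, hsp, hsy, ho, -⟩ := hC.exists_E h20 h30 hfix hkfix hg hTg hgc
    hr hr0 e1 e2 e3 e4
  have hg0 : g ≠ 0 := fun h0 => hgc 0 (by rw [h0, zero_smul])
  have hNF : NumberField F := NumberField.of_module_finite k F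
  have hp0 : pp g ≠ 0 := hC.pp_ne_zero h30 hgc
  have hps : star (pp g) = pp g := hC.pp_symm hg
  have H : Cfd C φ (pp g) :=
    { hD := hdeg
      hss := fun c => by
        rw [Algebra.algebraMap_eq_smul_one, hS.star_smul, star_one,
          ← Algebra.algebraMap_eq_smul_one]
      hfix := fun c hc => (hS.fix c).1 hc
      hfix' := hkfix
      hF := hF
      hK := hS.rank
      h2 := by norm_num
      hp := hps
      hp0 := hp0
      hφ := hsy }
  have hne : C.T (C.adj (pp g * g)) ≠ 0 := by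
    rw [S_three_add hg0 hTg]
    intro h0
    apply hSg
    linear_combination (1 / 3 : K) * h0
  obtain ⟨M, hMp, hMg, hMy, hMδ, hMd⟩ := H.exists_dat hS.star_s hS.sq d.ne_zero
    (by norm_num) hg hy ho hne
  refine ⟨F, inferInstance, hNF, inferInstance, φ, σ, hS.fin, hS.cen, M, hF, hσ, hMp, hMg, hMy,
    hMδ, hMd, ?_⟩
  intro z hz hQ e he
  obtain ⟨hq, hc⟩ := M.main hQ he
  have hz2 := M.x₀_ne_zero hz hc
  refine hw (algebraMap k K z.2) (M.xi z e) (hkfix _) (M.star_xi z e)
    (Or.inl ((_root_.map_ne_zero _).2 hz2)) ?_ ?_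
  · rw [← hMg, ← hMy, ← hMd]
    exact hc
  · rw [← hMg, ← hMy, ← hMd]
    exact hq

end Vale.Agent.P011.H775
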