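import Vale.Agent.P011.H775.M3d

/-!
# The chart with prescribed elements of trace zero
-/

set_option linter.unusedSectionVars false

open Module Polynomial Matrix

namespace Vale.Agent.P011.H775

open H948

variable {k K F D : Type} [Field k] [Field K] [Field F] [Algebra k K] [Algebra k F]

section ring

variable [Ring D] [Algebra k D] [Algebra K D] {C : Cub K D} {φ : F →ₐ[k] D}

/-- An element outside `k` has distinct conjugates. -/
theorem DSpl.inj_of_notMem [FiniteDimensional k F] {Ω : Type} [Field Ω] [Algebra K Ω]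
    (S : DSpl C φ Ω) (hF : finrank k F = 3) {a : F} (ha : ∀ c : k, a ≠ algebraMap k F c) :
    Function.Injective fun i => S.σ i a := by
  let : Algebra k Ω := ((algebraMap K Ω).comp (algebraMap k K)).toAlgebra
  let τ : Fin 3 → (F →ₐ[k] Ω) := fun i => { S.σ i with commutes' := fun c => S.base i c }
  have hs : IsSimpleOrder (IntermediateField k F) :=
    IntermediateField.isSimpleOrder_of_finrank_prime k F (by rw [hF]; exact Nat.prime_three)
  have htop : IntermediateField.adjoin k {a} = ⊤ := by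
    refine (hs.eq_bot_or_eq_top _).resolve_left fun h => ?_
    rw [IntermediateField.adjoin_simple_eq_bot_iff, IntermediateField.mem_bot] at h
    obtain ⟨c, hc⟩ := h
    exact ha c hc.symm
  have htop' : Algebra.adjoin k {a} = ⊤ := by
    rw [← IntermediateField.adjoin_simple_toSubalgebra_of_isAlgebraic
      (Algebra.IsAlgebraic.isAlgebraic a), htop, IntermediateField.top_toSubalgebra]
  intro i j hij
  apply S.σinj
  have h : τ i = τ j := by
    refine AlgHom.ext_of_adjoin_eq_top htop' ?_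
    intro x hx
    rw [Set.mem_singleton_iff] at hx
    rw [hx]
    exact hij
  ext x
  exact DFunLike.congr_fun h x

/-- The twist constant of an element of trace zero and its square. -/
theorem DSpl.D0_sq_ne [FiniteDimensional k F] {Ω : Type} [Field Ω] [Algebra K Ω]
    (S : DSpl C φ Ω) (hF : finrank k F = 3) (h3 : (3 : k) ≠ 0) {a : F}
    (hta : Algebra.trace k F a = 0) (hac : ∀ c : k, a ≠ algebraMap k F c) :
    Algebra.trace k F (a ^ 2 - algebraMap k F (Algebra.trace k F (a ^ 2) / 3)) = 0 ∧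
      D0 k a (a ^ 2 - algebraMap k F (Algebra.trace k F (a ^ 2) / 3)) ≠ 0 := by
  set b := a ^ 2 - algebraMap k F (Algebra.trace k F (a ^ 2) / 3) with hb
  have htb : Algebra.trace k F b = 0 := by
    rw [hb, map_sub, Algebra.trace_algebraMap, hF, nsmul_eq_mul]
    push_cast
    field_simp
    ring
  refine ⟨htb, fun h0 => ?_⟩
  have h3' : (3 : Ω) ≠ 0 := by
    have h := (_root_.map_ne_zero ((algebraMap K Ω).comp (algebraMap k K))).2 h3
    rwa [map_ofNat] at h
  have hinj := S.inj_of_notMem hF hac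
  have hsq := S.tc_sq h3 hta htb
  rw [h0, map_zero, map_zero] at hsq
  have htc : S.tc a b = 0 := pow_eq_zero_iff (two_ne_zero) |>.1 hsq
  have ha' := S.trace_eq a
  rw [hta, map_zero, map_zero] at ha'
  have ha2 : S.σ 2 a = -(S.σ 0 a + S.σ 1 a) := by linear_combination -ha'
  have hm : ∀ i, S.σ i b = S.σ i a ^ 2 -
      (S.σ 0 a ^ 2 + S.σ 1 a ^ 2 + S.σ 2 a ^ 2) / 3 := fun i => by
    rw [hb, map_sub, map_pow, S.base, map_div₀, map_div₀, S.trace_eq, map_ofNat, map_ofNat,
      map_pow, map_pow, map_pow]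
  have h1 : 3 * S.tc a b =
      -((S.σ 0 a - S.σ 1 a) * (S.σ 0 a - S.σ 2 a) * (S.σ 1 a - S.σ 2 a)) := by
    rw [DSpl.tc, hm, hm, ha2]
    field_simp
    ring
  rw [htc, mul_zero] at h1
  have h2 := neg_eq_zero.1 h1.symm
  rcases mul_eq_zero.1 h2 with h4 | h4
  · rcases mul_eq_zero.1 h4 with h5 | h5
    · exact absurd (hinj (sub_eq_zero.1 h5)) (by decide)
    · exact absurd (hinj (sub_eq_zero.1 h5)) (by decide)
  · exact absurd (hinj (sub_eq_zero.1 h4)) (by decide)

end ring

section star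

variable [StarRing K] [DivisionRing D] [StarRing D] [Algebra k D] [Algebra K D]
  [FiniteDimensional K D] [Algebra.IsCentral K D] [IsScalarTower k K D]
  [FiniteDimensional k F] [Algebra.IsSeparable k F]

variable {C : Cub K D} {φ : F →ₐ[k] D} {p : D}

/-- The data of a chart with prescribed elements of trace zero. -/
theorem Cfd.exists_dat_of (H : Cfd C φ p) {δ : K} (hδ : star δ = -δ) {d : k}
    (hd : δ ^ 2 = algebraMap k K d) (d0 : d ≠ 0) (h3 : (3 : k) ≠ 0) {g y : D}
    (hg : star g = g) (hy : star y = y) (horth : ∀ x, C.T (p * g * φ x) = 0)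
    (hne : C.T (C.adj (p * g)) ≠ 0) {a b : F} (ha : Algebra.trace k F a = 0)
    (hb : Algebra.trace k F b = 0) (hab : D0 k a b ≠ 0) :
    ∃ M : Dat C φ, M.p = p ∧ M.g = g ∧ M.y = y ∧ M.δ = δ ∧ M.d = d ∧ M.a = a ∧ M.b = b := by
  obtain ⟨Ω, _, _, ⟨S⟩⟩ := H.exists_dspl
  have hsyp : Sy p p := by
    change p * star p = p * p
    rw [H.hp]
  obtain ⟨n, hn⟩ := H.exists_N hsyp
  have hsy : Sy p (p * g) := by
    change p * star (p * g) = p * g * p
    rw [star_mul, hg, H.hp, mul_assoc]
  have hpr : pr C φ (p * g) = 0 := by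
    by_contra h0
    have hnd := traceForm_nondegenerate k F
    have h1 : ∀ f : F, Algebra.traceForm k F (pr C φ (p * g)) f = 0 := fun f => by
      rw [Algebra.traceForm_apply, mul_comm]
      apply (algebraMap k K).injective
      rw [← H.T_mul_pr hsy, C.T_comm, horth, map_zero]
    exact h0 (hnd.1 _ h1)
  refine ⟨{ p := p, g := g, y := y, δ := δ, d := d, n := n, a := a, b := b, H := H, hδ := hδ,
            hd := hd, d0 := d0, hn := hn.symm, ha := ha, hb := hb, D00 := hab, h3 := h3,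
            hg := hg, hy := hy, prh := hpr, prh0 := fun h0 => hne ?_ },
          rfl, rfl, rfl, rfl, rfl, rfl, rfl⟩
  have h1 := H.T_mul_pr (H.adj_sy hsy) 1
  rw [map_one, one_mul, one_mul, h0, map_zero, map_zero] at h1
  exact h1

end star

/-- Orthogonality to the powers of `g` implies orthogonality to the inverse of `pp g`. -/
theorem T_mul_pp_inv [DivisionRing D] [Algebra K D] (C : Cub K D) {g r : D} (hg0 : g ≠ 0)
    (hp0 : pp g ≠ 0) (e1 : C.T r = 0) (e2 : C.T (g * r) = 0) (e3 : C.T (g * g * r) = 0) :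
    C.T (r * (pp g)⁻¹) = 0 := by
  have h3 : (3 : D) = (3 : K) • (1 : D) := by
    rw [ofNat_smul_eq_nsmul, nsmul_eq_mul, mul_one]
    rfl
  have f1 : C.T (r * 1) = 0 := by rw [mul_one, e1]
  have f2 : C.T (r * g) = 0 := by rw [C.T_comm, e2]
  have f3 : C.T (r * (g * g)) = 0 := by rw [C.T_comm, e3]
  have f4 : C.T (r * g⁻¹) = 0 := by
    rw [C.inv_eq hg0, mul_smul_comm, map_smul, C.adj_eq g, mul_add, mul_sub, mul_smul_comm,
      mul_smul_comm, map_add, map_sub, map_smul, map_smul, f1, f2, f3]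
    simp
  have f5 : C.T (r * (g⁻¹ * g⁻¹)) = 0 := by
    have h5 : C.adj g * g⁻¹ = g - C.T g • (1 : D) + C.S g • g⁻¹ := by
      rw [C.adj_eq g, add_mul, sub_mul, mul_assoc, mul_inv_cancel₀ hg0, mul_one, smul_mul_assoc,
        mul_inv_cancel₀ hg0, smul_mul_assoc, one_mul]
    have h6 : g⁻¹ * g⁻¹ = (C.N g)⁻¹ • (g - C.T g • (1 : D) + C.S g • g⁻¹) := by
      rw [← h5, ← smul_mul_assoc, ← C.inv_eq hg0]
    rw [h6, mul_smul_comm, map_smul, mul_add, mul_sub, mul_smul_comm, mul_smul_comm, map_add,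
      map_sub, map_smul, map_smul, f1, f2, f4]
    simp
  rw [C.inv_eq hp0, mul_smul_comm, map_smul, C.adj_eq (pp g)]
  have hpp : pp g = (3 : K) • (1 : D) + g⁻¹ := by rw [pp, h3]
  have g1 : C.T (r * pp g) = 0 := by
    rw [hpp, mul_add, mul_smul_comm, map_add, map_smul, f1, f4, smul_zero, add_zero]
  have g2 : C.T (r * (pp g * pp g)) = 0 := by
    have h7 : pp g * pp g = (9 : K) • (1 : D) + (6 : K) • g⁻¹ + g⁻¹ * g⁻¹ := by
      rw [hpp, add_mul, mul_add, mul_add, smul_mul_smul_comm, smul_mul_assoc, mul_smul_comm]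
      simp only [mul_one, one_mul]
      have h8 : (6 : K) = 3 + 3 := by norm_num
      have h9 : (9 : K) = 3 * 3 := by norm_num
      rw [h8, h9, add_smul]
      abel
    rw [h7, mul_add, mul_add, mul_smul_comm, mul_smul_comm, map_add, map_add, map_smul, map_smul,
      f1, f4, f5]
    simp
  rw [mul_add, mul_sub, mul_smul_comm, mul_smul_comm, map_add, map_sub, map_smul, map_smul, g2,
    g1, f1]
  simp

/-- **The chart attached to a unitary element and an isotropic element, with the element of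
trace zero prescribed.** -/
theorem exists_dat_of_chart' {k K D : Type} [Field k] [NumberField k] [Field K] [StarRing K]
    [DivisionRing D] [StarRing D] [Algebra k K] [Algebra k D] [Algebra K D] [IsScalarTower k K D]
    {d : kˣ} {s : K} (hS : Even.Setting k K D d s)
    (hdeg : finrank K D = 3 ^ 2) (C : Cub K D) {x u : D} (hu : u * star u = 1)
    (hT : C.T ((x - 1) * u) ≠ 0) :
    ∃ g y : D, star g = g ∧ star y = y ∧ C.T g = -1 ∧ C.T y = 0 ∧
      (2 : K) • ((C.T ((x - 1) * u))⁻¹ • ((x - 1) * u)) = 1 + g + s • y ∧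
      ∀ r : D, (∀ c : K, g ≠ c • (1 : D)) → 3 * C.S g ≠ 1 → star r = r → r ≠ 0 → C.T r = 0 →
        C.T (g * r) = 0 → C.T (g * g * r) = 0 → C.T (g * pp g * pp g * C.adj r) = 0 →
        ∃ (F : Type) (_ : Field F) (_ : NumberField F) (_ : Algebra k F) (φ : F →ₐ[k] D)
          (σ : F) (_ : FiniteDimensional K D) (_ : Algebra.IsCentral K D) (M : Dat C φ),
          finrank k F = 3 ∧ φ σ = r * (pp g)⁻¹ ∧
          M.p = pp g ∧ M.g = g ∧ M.y = y ∧ M.δ = s ∧ M.d = (d : k) ∧ M.a = σ ∧
          M.b = σ ^ 2 - algebraMap k F (Algebra.trace k F (σ ^ 2) / 3) ∧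
          ∀ z : F × k, z ≠ 0 → M.Q z = 0 → ∀ e : F,
            Algebra.norm k e + Algebra.trace k F (e * M.A z) + M.G z = 0 →
            ∃ w : D, w * star w = 1 ∧ C.T ((x - 1) * w) = 0 := by
  have := hS.fin
  have := hS.cen
  have hk0 : CharZero K := charZero_of_injective_algebraMap (algebraMap k K).injective
  have h20 : (2 : K) ≠ 0 := by norm_num
  have h30 : (3 : K) ≠ 0 := by norm_num
  have hC := sCub_of C hdeg hS.star_smul
  have hs0 : s ≠ 0 := by
    intro h0
    have h := hS.sq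
    rw [h0, zero_pow (by norm_num)] at h
    exact (_root_.map_ne_zero (algebraMap k K)).2 d.ne_zero h.symm
  obtain ⟨g, y, hg, hy, hTg, hTy, h2, hw⟩ := hC.exists_chart h20 hs0 hS.star_s hS.sq hu hT
  refine ⟨g, y, hg, hy, hTg, hTy, h2, ?_⟩
  intro r hgc hSg hr hr0 e1 e2 e3 e4
  have hfix : ∀ c : K, star c = c → ∃ c' : k, algebraMap k K c' = c := fun c hc =>
    (hS.fix c).1 hc
  have hkfix : ∀ c : k, star (algebraMap k K c) = algebraMap k K c := fun c =>
    (hS.fix _).2 ⟨c, rfl⟩
  obtain ⟨F, _, _, _, φ, σ, hF, hσ, hsp, hsy, ho, -⟩ := hC.exists_E h20 h30 hfix hkfix hg hTg hgc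
    hr hr0 e1 e2 e3 e4
  have hg0 : g ≠ 0 := fun h0 => hgc 0 (by rw [h0, zero_smul])
  have hNF : NumberField F := NumberField.of_module_finite k F
  have hp0 : pp g ≠ 0 := hC.pp_ne_zero h30 hgc
  have hps : star (pp g) = pp g := hC.pp_symm hg
  have H : Cfd C φ (pp g) :=
    { hD := hdeg
      hss := fun c => by
        rw [Algebra.algebraMap_eq_smul_one, hS.star_smul, star_one,
          ← Algebra.algebraMap_eq_smul_one]
      hfix := fun c hc => (hS.fix c).1 hc
      hfix' := hkfix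
      hF := hF
      hK := hS.rank
      h2 := by norm_num
      hp := hps
      hp0 := hp0
      hφ := hsy }
  have hne : C.T (C.adj (pp g * g)) ≠ 0 := by
    rw [S_three_add hg0 hTg]
    intro h0
    apply hSg
    linear_combination (1 / 3 : K) * h0
  have hTσ : C.T (r * (pp g)⁻¹) = 0 := T_mul_pp_inv C hg0 hp0 e1 e2 e3
  have hta : Algebra.trace k F σ = 0 := by
    apply (algebraMap k K).injective
    rw [← H.T_φ, hσ, hTσ, map_zero]
  have hac : ∀ c : k, σ ≠ algebraMap k F c := by
    intro c hc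
    have h1 : algebraMap k D c = r * (pp g)⁻¹ := by rw [← hσ, hc, φ.commutes]
    rw [← h1, IsScalarTower.algebraMap_apply k K D, Algebra.algebraMap_eq_smul_one, map_smul,
      C.T_one, smul_eq_mul] at hTσ
    have h2 : algebraMap k K c = 0 := by
      rcases mul_eq_zero.1 hTσ with h | h
      · exact h
      · exact absurd h h30
    rw [IsScalarTower.algebraMap_apply k K D, h2, map_zero] at h1
    exact (mul_ne_zero hr0 (inv_ne_zero hp0)) h1.symm
  obtain ⟨Ω, _, _, ⟨S⟩⟩ := H.exists_dspl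
  obtain ⟨htb, hab⟩ := S.D0_sq_ne hF (by norm_num) hta hac
  obtain ⟨M, hMp, hMg, hMy, hMδ, hMd, hMa, hMb⟩ := H.exists_dat_of hS.star_s hS.sq d.ne_zero
    (by norm_num) hg hy ho hne hta htb hab
  refine ⟨F, inferInstance, hNF, inferInstance, φ, σ, hS.fin, hS.cen, M, hF, hσ, hMp, hMg, hMy,
    hMδ, hMd, hMa, hMb, ?_⟩
  intro z hz hQ e he
  obtain ⟨hq, hc⟩ := M.main hQ he
  have hz2 := M.x₀_ne_zero hz hc
  refine hw (algebraMap k K z.2) (M.xi z e) (hkfix _) (M.star_xi z e)
    (Or.inl ((_root_.map_ne_zero _).2 hz2)) ?_ ?_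
  · rw [← hMg, ← hMy, ← hMd]
    exact hc
  · rw [← hMg, ← hMy, ← hMd]
    exact hq

end Vale.Agent.P011.H775
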