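import Vale.Agent.P011.H775.M3b

/-!
# Orthogonality at infinity, in every characteristic other than two and three
-/

set_option linter.unusedSectionVars false

open Module Polynomial Matrix

namespace Vale.Agent.P011.H775

variable {k K F D : Type} [Field k] [Field K] [Field F] [Algebra k K] [Algebra k F]

variable [StarRing K] [DivisionRing D] [StarRing D] [Algebra k D] [Algebra K D]
  [FiniteDimensional K D] [Algebra.IsCentral K D] [IsScalarTower k K D]
  [FiniteDimensional k F] [Algebra.IsSeparable k F]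

variable {C : Cub K D} {φ : F →ₐ[k] D}

section H

variable {p : D} (H : Cfd C φ p)

include H

/-- A vector orthogonal to both points at infinity. -/
theorem Cfd.exists_orth (h3 : (3 : k) ≠ 0) {a b : F} (ha : Algebra.trace k F a = 0)
    (hb : Algebra.trace k F b = 0) (h0 : D0 k a b ≠ 0) :
    ∃ c : F, e2p k (sh k a) c = 0 ∧ e2p k (sh k b) c = 0 ∧ e2 k c ≠ 0 := by
  obtain ⟨Ω, _, _, ⟨S⟩⟩ := H.exists_dspl
  have h3' : (3 : Ω) ≠ 0 := by
    have h := (_root_.map_ne_zero ((algebraMap K Ω).comp (algebraMap k K))).2 h3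
    rwa [map_ofNat] at h
  have h2' := S.two_ne H.h2
  have hinj : Function.Injective ((algebraMap K Ω).comp (algebraMap k K)) :=
    RingHom.injective _
  have ha' := S.trace_eq a
  have hb' := S.trace_eq b
  rw [ha, map_zero, map_zero] at ha'
  rw [hb, map_zero, map_zero] at hb'
  have ha2 : S.σ 2 a = -(S.σ 0 a + S.σ 1 a) := by linear_combination -ha'
  have hb2 : S.σ 2 b = -(S.σ 0 b + S.σ 1 b) := by linear_combination -hb'
  refine ⟨sh k (a + b) - sh k a - sh k b, ?_, ?_, fun h => h0 ?_⟩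
  · apply hinj
    change algebraMap K Ω (algebraMap k K _) = algebraMap K Ω (algebraMap k K 0)
    simp only [S.e2p_eq, map_sub, H.σ_sh S, map_add, ha2, hb2, map_zero]
    ring
  · apply hinj
    change algebraMap K Ω (algebraMap k K _) = algebraMap K Ω (algebraMap k K 0)
    simp only [S.e2p_eq, map_sub, H.σ_sh S, map_add, ha2, hb2, map_zero]
    ring
  · have h4 : e2 k (sh k (a + b) - sh k a - sh k b) = - D0 k a b := by
      apply hinj
      change algebraMap K Ω (algebraMap k K _) = algebraMap K Ω (algebraMap k K _)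
      rw [map_neg, map_neg, ← S.tc_sq h3 ha hb, DSpl.tc]
      simp only [S.e2_eq H.h2, map_sub, H.σ_sh S, map_add, ha2, hb2]
      ring
    rw [h4, neg_eq_zero] at h
    exact h

end H

namespace Dat

variable (M : Dat C φ)

theorem Q_zero (t : F) : M.Q (t, 0) = M.c₁ * e2 k t := by
  rw [M.Q_apply]
  simp

theorem h_ne_zero : M.h ≠ 0 := by
  intro h4
  apply M.prh0
  change pr C φ (C.adj M.h) = 0
  rw [h4, C.adj_zero, map_zero]

theorem c₁_ne_zero : M.c₁ ≠ 0 := by
  rw [c₁]
  refine mul_ne_zero (mul_ne_zero M.d0 M.D00) ?_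
  intro h1
  have h2 := M.H.rk_eq M.star_N_h
  rw [h1, map_zero] at h2
  exact C.N_ne_zero M.h_ne_zero h2.symm

theorem a_ne_zero : M.a ≠ 0 := by
  intro h0
  apply M.D00
  rw [h0, D0]
  simp

theorem sh_a_ne_zero : sh k M.a ≠ 0 := M.H.sh_ne_zero M.a_ne_zero

theorem polar_inf (t u : F) :
    QuadraticMap.polar M.Q (t, 0) (u, 0) = M.c₁ * e2p k t u := by
  have h2 := M.H.h2
  rw [QuadraticMap.polar, Prod.mk_add_mk, add_zero, M.Q_zero, M.Q_zero, M.Q_zero, e2, e2, e2,
    e2p]
  simp only [map_add, add_mul, mul_add, pow_two]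
  rw [mul_comm u t]
  field_simp
  ring

/-- The rank hypothesis of the conic theorem. -/
theorem exists_rank :
    ∃ y, QuadraticMap.polar M.Q (sh k M.a, 0) y = 0 ∧ M.Q y ≠ 0 := by
  obtain ⟨c, h1, -, h2⟩ := M.H.exists_orth M.h3 M.ha M.hb M.D00
  refine ⟨(c, 0), ?_, ?_⟩
  · rw [M.polar_inf, h1, mul_zero]
  · rw [M.Q_zero]
    exact mul_ne_zero M.c₁_ne_zero h2

theorem A_apply (z : F × k) : M.A z = M.al * z.1 ^ 2 + M.be * algebraMap k F z.2 ^ 2 := by
  rw [Dat.A, map_pow]

end Dat

end Vale.Agent.P011.H775
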