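import Vale.Agent.P011.H775.Ent

/-!
# Rational formulas on `V`, and the parametrisation of `V`
-/

set_option linter.unusedSectionVars false

open Module Polynomial Matrix

namespace Vale.Agent.P011.H775

variable {k K F D : Type} [Field k] [Field K] [Field F] [Algebra k K] [Algebra k F]

/-- The second elementary symmetric function of the conjugates. -/
noncomputable def e2 (k : Type) {F : Type} [Field k] [Field F] [Algebra k F] (t : F) : k :=
  (Algebra.trace k F t ^ 2 - Algebra.trace k F (t ^ 2)) / 2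

/-- The polar form of `e2`. -/
noncomputable def e2p (k : Type) {F : Type} [Field k] [Field F] [Algebra k F] (t u : F) : k :=
  Algebra.trace k F t * Algebra.trace k F u - Algebra.trace k F (t * u)

/-- The square of the twist constant. -/
noncomputable def D0 (k : Type) {F : Type} [Field k] [Field F] [Algebra k F] (f g : F) : k :=
  (Algebra.trace k F (f ^ 2) * Algebra.trace k F (g ^ 2) - Algebra.trace k F (f * g) ^ 2) / 3

section ring

variable [Ring D] [Algebra k D] [Algebra K D]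

/-- The twist. -/
def tw (φ : F →ₐ[k] D) (δ : K) (f g : F) (v : D) : D := δ • (φ f * v * φ g - φ g * v * φ f)

variable {C : Cub K D} {φ : F →ₐ[k] D} {Ω : Type} [Field Ω] [Algebra K Ω] (S : DSpl C φ Ω)

include S in
theorem DSpl.two_ne (h2 : (2 : k) ≠ 0) : (2 : Ω) ≠ 0 := by
  have _ := S
  have h := (map_ne_zero ((algebraMap K Ω).comp (algebraMap k K))).2 h2
  rwa [map_ofNat] at h

theorem DSpl.e2_eq (h2 : (2 : k) ≠ 0) (t : F) : algebraMap K Ω (algebraMap k K (e2 k t)) =
    S.σ 1 t * S.σ 2 t + S.σ 2 t * S.σ 0 t + S.σ 0 t * S.σ 1 t := by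
  have h := S.two_ne h2
  simp only [e2, map_div₀, map_sub, map_pow, map_ofNat, S.trace_eq]
  field_simp
  ring

theorem DSpl.e2p_eq (t u : F) : algebraMap K Ω (algebraMap k K (e2p k t u)) =
    S.σ 0 t * (S.σ 1 u + S.σ 2 u) + S.σ 1 t * (S.σ 2 u + S.σ 0 u) +
      S.σ 2 t * (S.σ 0 u + S.σ 1 u) := by
  simp only [e2p, map_sub, map_mul, S.trace_eq]
  ring

/-- The twist constant. -/
def DSpl.tc (f g : F) : Ω := S.σ 0 f * S.σ 1 g - S.σ 0 g * S.σ 1 f

theorem DSpl.tc_sq (h3 : (3 : k) ≠ 0) {f g : F} (hf : Algebra.trace k F f = 0)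
    (hg : Algebra.trace k F g = 0) :
    S.tc f g ^ 2 = algebraMap K Ω (algebraMap k K (D0 k f g)) := by
  have h : (3 : Ω) ≠ 0 := by
    have h := (map_ne_zero ((algebraMap K Ω).comp (algebraMap k K))).2 h3
    rwa [map_ofNat] at h
  have hf' := S.trace_eq f
  have hg' := S.trace_eq g
  rw [hf, map_zero, map_zero] at hf'
  rw [hg, map_zero, map_zero] at hg'
  have hf2 : S.σ 2 f = -(S.σ 0 f + S.σ 1 f) := by linear_combination -hf'
  have hg2 : S.σ 2 g = -(S.σ 0 g + S.σ 1 g) := by linear_combination -hg'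
  simp only [D0, map_div₀, map_sub, map_mul, map_pow, map_ofNat, S.trace_eq, hf2, hg2, DSpl.tc]
  field_simp
  ring

theorem DSpl.f_tw (δ : K) (f g : F) (v : D) (i j : Fin 3) : S.f (tw φ δ f g v) i j =
    algebraMap K Ω δ * (S.σ i f * S.σ j g - S.σ i g * S.σ j f) * S.f v i j := by
  rw [tw, map_smul, map_sub, map_mul, map_mul, map_mul, map_mul, S.dg, S.dg, Matrix.smul_apply,
    Matrix.sub_apply, Matrix.mul_diagonal, Matrix.mul_diagonal, Matrix.diagonal_mul,
    Matrix.diagonal_mul, Algebra.smul_def]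
  ring

variable {S}

theorem DSpl.Off.tw {v : D} (hv : S.Off v) (δ : K) (f g : F) : S.Off (H775.tw φ δ f g v) :=
  ⟨fun i => by rw [S.f_tw, hv.dg, mul_zero]⟩

variable (S)

theorem DSpl.xp_tw (δ : K) {f g : F} (hf : Algebra.trace k F f = 0)
    (hg : Algebra.trace k F g = 0) (v : D) (i : Fin 3) :
    S.xp (tw φ δ f g v) i = algebraMap K Ω δ * S.tc f g * S.xp v i := by
  have hf' := S.trace_eq f
  have hg' := S.trace_eq g
  rw [hf, map_zero, map_zero] at hf'
  rw [hg, map_zero, map_zero] at hg'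
  have hf2 : S.σ 2 f = -(S.σ 0 f + S.σ 1 f) := by linear_combination -hf'
  have hg2 : S.σ 2 g = -(S.σ 0 g + S.σ 1 g) := by linear_combination -hg'
  fin_cases i
  · change S.f _ 1 2 = _ * S.f v 1 2
    rw [S.f_tw, DSpl.tc, hf2, hg2]
    ring
  · change S.f _ 2 0 = _ * S.f v 2 0
    rw [S.f_tw, DSpl.tc, hf2, hg2]
    ring
  · change S.f _ 0 1 = _ * S.f v 0 1
    rw [S.f_tw, DSpl.tc]

theorem DSpl.xm_tw (δ : K) {f g : F} (hf : Algebra.trace k F f = 0)
    (hg : Algebra.trace k F g = 0) (v : D) (i : Fin 3) :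
    S.xm (tw φ δ f g v) i = -(algebraMap K Ω δ * S.tc f g) * S.xm v i := by
  have hf' := S.trace_eq f
  have hg' := S.trace_eq g
  rw [hf, map_zero, map_zero] at hf'
  rw [hg, map_zero, map_zero] at hg'
  have hf2 : S.σ 2 f = -(S.σ 0 f + S.σ 1 f) := by linear_combination -hf'
  have hg2 : S.σ 2 g = -(S.σ 0 g + S.σ 1 g) := by linear_combination -hg'
  fin_cases i
  · change S.f _ 2 1 = _ * S.f v 2 1
    rw [S.f_tw, DSpl.tc, hf2, hg2]
    ring
  · change S.f _ 0 2 = _ * S.f v 0 2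
    rw [S.f_tw, DSpl.tc, hf2, hg2]
    ring
  · change S.f _ 1 0 = _ * S.f v 1 0
    rw [S.f_tw, DSpl.tc]
    ring

end ring

section star

variable [StarRing K] [DivisionRing D] [StarRing D] [Algebra k D] [Algebra K D]
  [FiniteDimensional K D] [Algebra.IsCentral K D] [IsScalarTower k K D]
  [FiniteDimensional k F] [Algebra.IsSeparable k F]

/-- The space `V`. -/
structure InV (C : Cub K D) (φ : F →ₐ[k] D) (p v : D) : Prop where
  sy : Sy p v
  pr0 : pr C φ v = 0

variable {C : Cub K D} {φ : F →ₐ[k] D} {p : D} (H : Cfd C φ p)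

include H

theorem Cfd.off {Ω : Type} [Field Ω] [Algebra K Ω] (S : DSpl C φ Ω) {v : D}
    (hv : InV C φ p v) : S.Off v :=
  ⟨fun i => by rw [← S.pr_eq H hv.sy, hv.pr0, map_zero]⟩

theorem Cfd.inV {Ω : Type} [Field Ω] [Algebra K Ω] (S : DSpl C φ Ω) {v : D} (hv : Sy p v)
    (h : S.Off v) : InV C φ p v :=
  ⟨hv, (S.σ 0).injective (by rw [S.pr_eq H hv, h.dg, map_zero])⟩

theorem Cfd.inV_add {u v : D} (hu : InV C φ p u) (hv : InV C φ p v) : InV C φ p (u + v) :=
  ⟨hu.sy.add hv.sy, by rw [map_add, hu.pr0, hv.pr0, add_zero]⟩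

theorem Cfd.inV_smul (c : k) {v : D} (hv : InV C φ p v) : InV C φ p (c • v) :=
  ⟨by rw [← algebraMap_smul K c]; exact H.smul_K hv.sy (H.hfix' c),
    by rw [map_smul, hv.pr0, smul_zero]⟩

theorem Cfd.act_sy (w : F) {v : D} (hv : Sy p v) : Sy p (act C φ w v) := by
  have h : act C φ w v = C.T (φ w) • v - (φ w * v + v * φ w) := by
    rw [act]
    abel
  rw [h]
  exact (H.smul_K hv (H.star_coeff (H.hφ w)).1).sub ((H.hφ w).jordan hv)

theorem Cfd.act_inV (w : F) {v : D} (hv : InV C φ p v) : InV C φ p (act C φ w v) := by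
  obtain ⟨Ω, _, _, ⟨S⟩⟩ := H.exists_dspl
  exact H.inV S (H.act_sy w hv.sy) ((H.off S hv).act w)

theorem Cfd.tw_sy {δ : K} (hδ : star δ = -δ) (f g : F) {v : D} (hv : Sy p v) :
    Sy p (tw φ δ f g v) := by
  have hv' : p * star v = v * p := hv
  have hf' : p * star (φ f) = φ f * p := H.hφ f
  have hg' : p * star (φ g) = φ g * p := H.hφ g
  have e : ∀ a b : F, p * star (φ a) = φ a * p → p * star (φ b) = φ b * p →
      p * star (φ a * v * φ b) = φ b * v * φ a * p := fun a b ha hb => by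
    rw [star_mul, star_mul, ← mul_assoc, hb, mul_assoc, ← mul_assoc p, hv', mul_assoc v, ha]
    simp only [mul_assoc]
  change p * star (tw φ δ f g v) = tw φ δ f g v * p
  rw [tw, star_smul' H.hss, hδ, star_sub, mul_smul_comm, mul_sub, e f g hf' hg', e g f hg' hf',
    smul_mul_assoc, sub_mul, neg_smul, ← smul_neg, neg_sub]

theorem Cfd.tw_inV {δ : K} (hδ : star δ = -δ) (f g : F) {v : D} (hv : InV C φ p v) :
    InV C φ p (tw φ δ f g v) := by
  obtain ⟨Ω, _, _, ⟨S⟩⟩ := H.exists_dspl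
  exact H.inV S (H.tw_sy hδ f g hv.sy) ((H.off S hv).tw δ f g)

theorem Cfd.adj_sy' {v : D} (hv : InV C φ p v) : Sy p (C.adj v) := H.adj_sy hv.sy

theorem Cfd.pr_adj_act (w : F) {v : D} (hv : InV C φ p v) :
    pr C φ (C.adj (act C φ w v)) = w ^ 2 * pr C φ (C.adj v) := by
  obtain ⟨Ω, _, _, ⟨S⟩⟩ := H.exists_dspl
  apply (S.σ 0).injective
  rw [map_mul, map_pow, S.pr_eq H (H.adj_sy' (H.act_inV w hv)), S.pr_eq H (H.adj_sy' hv),
    (H.off S (H.act_inV w hv)).adj_diag, (H.off S hv).adj_diag, S.xp_act, S.xm_act]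
  ring

theorem Cfd.N_act (w : F) {v : D} (hv : InV C φ p v) :
    C.N (act C φ w v) = algebraMap k K (Algebra.norm k w) * C.N v := by
  obtain ⟨Ω, _, _, ⟨S⟩⟩ := H.exists_dspl
  apply (algebraMap K Ω).injective
  rw [map_mul, (H.off S (H.act_inV w hv)).N, (H.off S hv).N, S.norm_eq]
  simp only [S.xp_act, S.xm_act]
  ring

/-- The element of `V` with parameters `w` and `t`. -/
def par (C : Cub K D) (φ : F →ₐ[k] D) (δ : K) (f g : F) (h : D) (w t : F) : D :=
  act C φ w h + act C φ t (tw φ δ f g h)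

omit H [StarRing K] [StarRing D] [FiniteDimensional K D] [Algebra.IsCentral K D]
  [IsScalarTower k K D] [FiniteDimensional k F] [Algebra.IsSeparable k F] in
theorem xp_par {Ω : Type} [Field Ω] [Algebra K Ω] (S : DSpl C φ Ω) (δ : K) {f g : F}
    (hf : Algebra.trace k F f = 0) (hg : Algebra.trace k F g = 0) (h : D) (w t : F)
    (i : Fin 3) : S.xp (par C φ δ f g h w t) i =
      (S.σ i w + algebraMap K Ω δ * S.tc f g * S.σ i t) * S.xp h i := by
  rw [par, S.xp_add, S.xp_act, S.xp_act, S.xp_tw δ hf hg]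
  ring

omit H [StarRing K] [StarRing D] [FiniteDimensional K D] [Algebra.IsCentral K D]
  [IsScalarTower k K D] [FiniteDimensional k F] [Algebra.IsSeparable k F] in
theorem xm_par {Ω : Type} [Field Ω] [Algebra K Ω] (S : DSpl C φ Ω) (δ : K) {f g : F}
    (hf : Algebra.trace k F f = 0) (hg : Algebra.trace k F g = 0) (h : D) (w t : F)
    (i : Fin 3) : S.xm (par C φ δ f g h w t) i =
      (S.σ i w - algebraMap K Ω δ * S.tc f g * S.σ i t) * S.xm h i := by
  rw [par, S.xm_add, S.xm_act, S.xm_act, S.xm_tw δ hf hg]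
  ring

variable {δ : K} (hδ : star δ = -δ) {d : k} (hd : δ ^ 2 = algebraMap k K d) {f g : F}
  (hf : Algebra.trace k F f = 0) (hg : Algebra.trace k F g = 0) (h3 : (3 : k) ≠ 0)

include hδ

theorem Cfd.par_inV {h : D} (hh : InV C φ p h) (w t : F) :
    InV C φ p (par C φ δ f g h w t) :=
  H.inV_add (H.act_inV w hh) (H.act_inV t (H.tw_inV hδ f g hh))

include hf hg

/-- The linear condition. -/
theorem Cfd.pr_cr_par {h : D} (hh : InV C φ p h) (w t : F) :
    pr C φ (C.cr h (par C φ δ f g h w t)) = 2 * w * pr C φ (C.adj h) := by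
  obtain ⟨Ω, _, _, ⟨S⟩⟩ := H.exists_dspl
  have hv := H.par_inV hδ (f := f) (g := g) hh w t
  apply (S.σ 0).injective
  rw [map_mul, map_mul, map_ofNat, S.pr_eq H (H.cr_sy hh.sy hv.sy), S.pr_eq H (H.adj_sy' hh),
    (H.off S hh).cr_diag (H.off S hv), (H.off S hh).adj_diag, xp_par S δ hf hg,
    xm_par S δ hf hg]
  ring

include hd h3

/-- The diagonal of the adjoint. -/
theorem Cfd.pr_adj_par {h : D} (hh : InV C φ p h) (w t : F) :
    pr C φ (C.adj (par C φ δ f g h w t)) =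
      (w ^ 2 - algebraMap k F (d * D0 k f g) * t ^ 2) * pr C φ (C.adj h) := by
  obtain ⟨Ω, _, _, ⟨S⟩⟩ := H.exists_dspl
  have hv := H.par_inV hδ (f := f) (g := g) hh w t
  have hc := S.tc_sq h3 hf hg
  have hd' := congrArg (algebraMap K Ω) hd
  rw [map_pow] at hd'
  apply (S.σ 0).injective
  rw [map_mul, map_sub, map_mul, map_pow, map_pow, S.base, S.pr_eq H (H.adj_sy' hv),
    S.pr_eq H (H.adj_sy' hh), (H.off S hv).adj_diag, (H.off S hh).adj_diag, xp_par S δ hf hg,
    xm_par S δ hf hg, map_mul, map_mul, ← hc, ← hd']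
  ring

/-- The norm of the twist. -/
theorem Cfd.N_tw {h : D} (hh : InV C φ p h) : C.N (tw φ δ f g h) ^ 2 =
    algebraMap k K ((d * D0 k f g) ^ 3) *
      (C.N h ^ 2 + 4 * algebraMap k K (Algebra.norm k (pr C φ (C.adj h)))) := by
  obtain ⟨Ω, _, _, ⟨S⟩⟩ := H.exists_dspl
  have hc := S.tc_sq h3 hf hg
  have hd' := congrArg (algebraMap K Ω) hd
  rw [map_pow] at hd'
  apply (algebraMap K Ω).injective
  rw [map_pow, (H.off S (H.tw_inV hδ f g hh)).N]
  simp only [S.xp_tw δ hf hg, S.xm_tw δ hf hg, map_mul, map_add, map_pow, map_ofNat, ← hc, ← hd',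
    (H.off S hh).N, S.norm_eq, S.pr_eq H (H.adj_sy' hh), (H.off S hh).adj_diag]
  ring

/-- The quadratic form, in the parameters. -/
theorem Cfd.T_mul_adj_par {h : D} (hh : InV C φ p h) (w t : F) :
    algebraMap k K (d * D0 k f g) * C.T (h * C.adj (par C φ δ f g h w t)) =
      algebraMap k K (d * D0 k f g) * C.N h * algebraMap k K (e2 k w + d * D0 k f g * e2 k t) +
        C.N (tw φ δ f g h) * algebraMap k K (e2p k w t) := by
  obtain ⟨Ω, _, _, ⟨S⟩⟩ := H.exists_dspl
  have hc := S.tc_sq h3 hf hg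
  have hd' := congrArg (algebraMap K Ω) hd
  rw [map_pow] at hd'
  apply (algebraMap K Ω).injective
  have hv := H.par_inV hδ (f := f) (g := g) hh w t
  simp only [map_mul, map_add, S.e2_eq H.h2, S.e2p_eq, (H.off S hv).T_mul_adj (H.off S hh),
    (H.off S hh).N, (H.off S (H.tw_inV hδ f g hh)).N, xp_par S δ hf hg, xm_par S δ hf hg,
    S.xp_tw δ hf hg, S.xm_tw δ hf hg, ← hc, ← hd']
  ring

end star

end Vale.Agent.P011.H775
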