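import Vale.Agent.P011.H775.Diag

/-!
# The calculus of `V = F^⊥`
-/

open Module Polynomial Matrix

namespace Vale.Agent.P011.H775

variable {k K F D : Type} [Field k] [Field K] [Field F] [Algebra k K] [Algebra k F]

section pr

variable [Ring D] [Algebra k D] [Algebra K D] [IsScalarTower k K D]
  [FiniteDimensional k F] [Algebra.IsSeparable k F] (C : Cub K D) (φ : F →ₐ[k] D)

/-- The pairing used to define the projection to `F`. -/
noncomputable def prL : D →ₗ[k] F →ₗ[k] k :=
  LinearMap.mk₂ k (fun x f => (2 : k)⁻¹ * Algebra.trace k K (C.T (φ f * x)))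
    (fun x y f => by rw [mul_add, map_add, map_add, mul_add])
    (fun c x f => by
      rw [mul_smul_comm, ← algebraMap_smul K c, map_smul, algebraMap_smul, map_smul, smul_eq_mul,
        smul_eq_mul]
      ring)
    (fun x f g => by rw [map_add, add_mul, map_add, map_add, mul_add])
    (fun c x f => by
      rw [map_smul, smul_mul_assoc, ← algebraMap_smul K c, map_smul, algebraMap_smul, map_smul,
        smul_eq_mul, smul_eq_mul]
      ring)

/-- The projection to the cubic field `F`. -/
noncomputable def pr : D →ₗ[k] F :=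
  ((Algebra.traceForm k F).toDual (traceForm_nondegenerate k F)).symm.toLinearMap ∘ₗ prL C φ

theorem trace_mul_pr (x : D) (f : F) :
    Algebra.trace k F (f * pr C φ x) = (2 : k)⁻¹ * Algebra.trace k K (C.T (φ f * x)) := by
  have h := LinearMap.BilinForm.apply_toDual_symm_apply (B := Algebra.traceForm k F)
    (hB := traceForm_nondegenerate k F) (f := prL C φ x) f
  rw [mul_comm]
  exact h

end pr

section indep

variable [Ring D] [Algebra k D] [Algebra K D] {C : Cub K D} {φ : F →ₐ[k] D}
  {Ω : Type} [Field Ω] [Algebra K Ω]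

/-- Independence of the three embeddings. -/
theorem DSpl.indep (S : DSpl C φ Ω) {c : Fin 3 → Ω} (h : ∀ x : F, ∑ i, S.σ i x * c i = 0) : c = 0 := by
  have h1 := linearIndependent_monoidHom F Ω
  have h2 : Function.Injective fun i : Fin 3 => (S.σ i : F →* Ω) := by
    intro i j hij
    apply S.σinj
    ext x
    exact DFunLike.congr_fun hij x
  have h3 := h1.comp _ h2
  rw [Fintype.linearIndependent_iff] at h3
  funext i
  refine h3 c ?_ i
  funext x
  rw [Finset.sum_apply]
  refine Eq.trans (Finset.sum_congr rfl fun i _ => ?_) (h x)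
  change c i * S.σ i x = _
  rw [mul_comm]

end indep

/-- The element `x` is symmetric for the involution `x ↦ p x^* p⁻¹`. -/
def Sy [DivisionRing D] [StarRing D] (p x : D) : Prop := p * star x = x * p

/-- The standing hypotheses: `F` is a cubic field of symmetric elements. -/
structure Cfd [StarRing K] [DivisionRing D] [StarRing D] [Algebra k D] [Algebra K D]
    (C : Cub K D) (φ : F →ₐ[k] D) (p : D) : Prop where
  hD : finrank K D = 3 ^ 2
  hss : ∀ c : K, star (algebraMap K D c) = algebraMap K D (star c)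
  hfix : ∀ c : K, star c = c → c ∈ Set.range (algebraMap k K)
  hfix' : ∀ c : k, star (algebraMap k K c) = algebraMap k K c
  hF : finrank k F = 3
  hK : finrank k K = 2
  h2 : (2 : k) ≠ 0
  hp : star p = p
  hp0 : p ≠ 0
  hφ : ∀ x, Sy p (φ x)

section star

variable [StarRing K] [DivisionRing D] [StarRing D] [Algebra k D] [Algebra K D]

theorem star_smul' (hss : ∀ c : K, star (algebraMap K D c) = algebraMap K D (star c)) (c : K)
    (x : D) : star (c • x) = star c • star x := by
  rw [Algebra.smul_def, star_mul, hss, ← Algebra.commutes, ← Algebra.smul_def]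

theorem Cfd.smul_K {C : Cub K D} {φ : F →ₐ[k] D} {p : D} (H : Cfd C φ p) {x : D} (hx : Sy p x)
    {c : K} (hc : star c = c) : Sy p (c • x) := by
  have hx' : p * star x = x * p := hx
  change p * star (c • x) = (c • x) * p
  rw [star_smul' H.hss, hc, mul_smul_comm, hx', smul_mul_assoc]

variable [FiniteDimensional K D] [Algebra.IsCentral K D]

theorem star_adj {C : Cub K D} (hD : finrank K D = 3 ^ 2)
    (hss : ∀ c : K, star (algebraMap K D c) = algebraMap K D (star c)) (x : D) :
    C.adj (star x) = star (C.adj x) := by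
  obtain ⟨h1, h2, h3⟩ := C.star_coeff hD hss x
  rw [C.adj_eq, C.adj_eq, h1, h2, star_add, star_sub, star_mul, star_smul' hss, star_smul' hss,
    star_one]

variable {C : Cub K D} {φ : F →ₐ[k] D} {p : D}

theorem Sy.eq {x : D} (hp0 : p ≠ 0) (h : Sy p x) : x = p * star x * p⁻¹ := by
  have h' : p * star x = x * p := h
  rw [h', mul_assoc, mul_inv_cancel₀ hp0, mul_one]

theorem Sy.add {x y : D} (hx : Sy p x) (hy : Sy p y) : Sy p (x + y) := by
  have hx' : p * star x = x * p := hx
  have hy' : p * star y = y * p := hy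
  change p * star (x + y) = (x + y) * p
  rw [star_add, mul_add, hx', hy', add_mul]

theorem Sy.sub {x y : D} (hx : Sy p x) (hy : Sy p y) : Sy p (x - y) := by
  have hx' : p * star x = x * p := hx
  have hy' : p * star y = y * p := hy
  change p * star (x - y) = (x - y) * p
  rw [star_sub, mul_sub, hx', hy', sub_mul]

theorem Sy.jordan {x y : D} (hx : Sy p x) (hy : Sy p y) : Sy p (x * y + y * x) := by
  have hx' : p * star x = x * p := hx
  have hy' : p * star y = y * p := hy
  change p * star (x * y + y * x) = (x * y + y * x) * p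
  rw [star_add, star_mul, star_mul, mul_add, ← mul_assoc, hy', mul_assoc, hx', ← mul_assoc,
    ← mul_assoc, hx', mul_assoc x, hy', ← mul_assoc, add_comm, ← add_mul]

variable (H : Cfd C φ p)

include H

theorem Cfd.star_coeff {x : D} (hx : Sy p x) :
    star (C.T x) = C.T x ∧ star (C.S x) = C.S x ∧ star (C.N x) = C.N x := by
  obtain ⟨h1, h2, h3⟩ := C.star_coeff H.hD H.hss x
  have e := hx.eq H.hp0
  have hA : C.adj x = p * C.adj (star x) * p⁻¹ := by
    conv_lhs => rw [e]
    rw [C.adj_conj H.hp0]
  refine ⟨?_, ?_, ?_⟩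
  · rw [← h1]
    conv_rhs => rw [e]
    rw [C.T_conj H.hp0]
  · rw [← h2, Cub.S, Cub.S, hA, C.T_conj H.hp0]
  · rw [← h3]
    conv_rhs => rw [e]
    rw [C.N_conj H.hp0]

theorem Cfd.exists_T {x : D} (hx : Sy p x) : ∃ c : k, algebraMap k K c = C.T x :=
  H.hfix _ (H.star_coeff hx).1

theorem Cfd.exists_S {x : D} (hx : Sy p x) : ∃ c : k, algebraMap k K c = C.S x :=
  H.hfix _ (H.star_coeff hx).2.1

theorem Cfd.exists_N {x : D} (hx : Sy p x) : ∃ c : k, algebraMap k K c = C.N x :=
  H.hfix _ (H.star_coeff hx).2.2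

theorem Cfd.star_T_mul {x y : D} (hx : Sy p x) (hy : Sy p y) :
    star (C.T (x * y)) = C.T (x * y) := by
  obtain ⟨h1, h2, h3⟩ := C.star_coeff H.hD H.hss (x * y)
  rw [← h1, star_mul]
  have ex := hx.eq H.hp0
  have ey := hy.eq H.hp0
  conv_rhs => rw [C.T_comm, ex, ey]
  rw [show p * star y * p⁻¹ * (p * star x * p⁻¹) = p * (star y * star x) * p⁻¹ by
    calc p * star y * p⁻¹ * (p * star x * p⁻¹) = p * star y * (p⁻¹ * p) * star x * p⁻¹ := by
          simp only [mul_assoc]
      _ = _ := by
        rw [inv_mul_cancel₀ H.hp0, mul_one]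
        simp only [mul_assoc]]
  rw [C.T_conj H.hp0]

theorem Cfd.exists_T_mul {x y : D} (hx : Sy p x) (hy : Sy p y) :
    ∃ c : k, algebraMap k K c = C.T (x * y) :=
  H.hfix _ (H.star_T_mul hx hy)

theorem Cfd.adj_sy {x : D} (hx : Sy p x) : Sy p (C.adj x) := by
  have hx' : p * star x = x * p := hx
  change p * star (C.adj x) = C.adj x * p
  rw [← star_adj H.hD H.hss]
  have e := hx.eq H.hp0
  conv_rhs => rw [e]
  rw [C.adj_conj H.hp0, mul_assoc, inv_mul_cancel₀ H.hp0, mul_one]

theorem Cfd.cr_sy {x y : D} (hx : Sy p x) (hy : Sy p y) : Sy p (C.cr x y) := by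
  have h : C.cr x y = C.adj (x + y) - C.adj x - C.adj y := by
    rw [C.adj_add]
    abel
  rw [h]
  exact ((H.adj_sy (hx.add hy)).sub (H.adj_sy hx)).sub (H.adj_sy hy)

theorem Cfd.exists_dspl [IsScalarTower k K D] [FiniteDimensional k F]
    [Algebra.IsSeparable k F] :
    ∃ (Ω : Type) (_ : Field Ω) (_ : Algebra K Ω), Nonempty (DSpl C φ Ω) :=
  H775.exists_dspl C H.hF φ (fun x => H.exists_T (H.hφ x)) (fun x => H.exists_S (H.hφ x))
    fun x => H.exists_N (H.hφ x)

theorem Cfd.T_mul_pr [IsScalarTower k K D] [FiniteDimensional k F] [Algebra.IsSeparable k F]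
    {x : D} (hx : Sy p x) (f : F) :
    C.T (φ f * x) = algebraMap k K (Algebra.trace k F (f * pr C φ x)) := by
  obtain ⟨c, hc⟩ := H.exists_T_mul (H.hφ f) hx
  rw [trace_mul_pr, ← hc, Algebra.trace_algebraMap, H.hK]
  congr 1
  have := H.h2
  rw [nsmul_eq_mul]
  push_cast
  field_simp

omit H

variable [IsScalarTower k K D] [FiniteDimensional k F] [Algebra.IsSeparable k F]

section dspl

variable {Ω : Type} [Field Ω] [Algebra K Ω] (S : DSpl C φ Ω)

include H in
/-- The projection is the diagonal. -/
theorem DSpl.pr_eq {x : D} (hx : Sy p x) (i : Fin 3) : S.σ i (pr C φ x) = S.f x i i := by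
  have h : (fun i => S.f x i i - S.σ i (pr C φ x)) = 0 := by
    apply S.indep
    intro f
    have h1 := S.trF (f * pr C φ x)
    rw [← H.T_mul_pr hx, ← S.tr, map_mul, S.dg, Matrix.trace] at h1
    simp only [Matrix.diag_apply, Matrix.diagonal_mul, map_mul] at h1
    simp only [mul_sub, Finset.sum_sub_distrib]
    rw [h1, sub_self]
  have h2 := congrFun h i
  exact (sub_eq_zero.1 h2).symm

end dspl

end star

end Vale.Agent.P011.H775
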